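import Vale.Agent.P092.SX.MainT
import Vale.Agent.P092.SX.PB1

/-!
P092, project MIX (architect helper736; owner helper25): lattices in products of factors with
discrete projection (D, indexed by `J`, `PGL_(N j + 1)(k j)`) and factors with dense projection (N,
indexed by `B`). The letters.

* `T b` = the target group of the place `b` (the factor modulo its radical), `p b : Γ →* T b`.
* `NLeg` = output of the theory of dense projections for one leg: one classical calculus
  `H943.FLeg` of `C₀(T b)` for every `b`, invariant under the D-factors.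
* `Gauge p s₀` = a size of all the N-coordinates at once. `ZM q s₀ j R` = the elements all of whose
  coordinates except the D-coordinate `j` are bounded.
* `ExMHalf` = one leg of the D-factors (families, all amplifications), `ExN` = both N-legs.
-/

set_option linter.all false

open scoped InnerProductSpace ENNReal LinearAlgebra.Projectivization ZeroAtInfty
open Filter Topology ContinuousLinearMap MeasureTheory TopologicalSpace

namespace Vale.Agent.P092.MX

open Vale.Agent.P092.SN (CY CG inc NInc bw un nm NW Att act PH UD NWA actG fp fh Prv Adm TVE qP)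
open Vale.Agent.P092.SNP (AdmP ZP)
open Vale.Agent.P092.SX (LegN LegNF EG iG aG aG' admP_PG)
open Vale.Agent.P092.RC (Cm TRN Moore GG PG YY y0 ct adjV3)
open Vale.Agent.P092.H35 (sp mkP)
open Vale.Agent.P092.H943 (FLeg)
open Vale.Agent.P092.H85 (cdat)

/-! ### Coordinates -/

section coord

variable {Γ B : Type} {T : B → Type} [∀ b, Group (T b)] [∀ b, TopologicalSpace (T b)] [Group Γ]

/-- a size of all the N-coordinates -/
structure Gauge (p : ∀ b, Γ →* T b) (s₀ : Γ → ℝ) : Prop where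
  /-- compact sets have bounded size -/
  bd : ∀ C : Set (∀ b, T b), IsCompact C → ∃ R, ∀ γ, (fun b => p b γ) ∈ C → s₀ γ ≤ R
  /-- bounded size means a compact set -/
  cp : ∀ R, ∃ C : Set (∀ b, T b), IsCompact C ∧ ∀ γ, s₀ γ ≤ R → (fun b => p b γ) ∈ C

/-- the elements on which all D-coordinates except `j` and the gauge are bounded -/
def ZM {J : Type} {k : J → Type} [∀ j, NontriviallyNormedField (k j)] {N : J → ℕ}
    (q : ∀ j, Γ → GG (k j) (N j)) (s₀ : Γ → ℝ) (j : J) (R : ℝ) : Set Γ :=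
  {γ | (∀ i, i ≠ j → nm (q i γ) ≤ R) ∧ s₀ γ ≤ R}

end coord

/-! ### The legs of the N-places -/

section nleg

variable {J B : Type} {k : J → Type} [∀ j, NontriviallyNormedField (k j)] {N : J → ℕ}
  {T : B → Type} [∀ b, Group (T b)] [∀ b, TopologicalSpace (T b)]
  {E Γ K : Type} [Group E] [Group Γ] [NormedAddCommGroup K] [InnerProductSpace ℂ K]
  [CompleteSpace K]

/-- **the N-places of one leg** -/
structure NLeg (ι : ∀ j, GG (k j) (N j) →* E) (π : E →* (K →L[ℂ] K)) (lam : Γ →* (K →L[ℂ] K))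
    (W : Set (K →L[ℂ] K)) (p : ∀ b, Γ →* T b) (Q : ∀ b, C₀(T b, ℂ) →⋆ₙₐ[ℂ] (K →L[ℂ] K)) :
    Prop where
  fl : ∀ b, FLeg π lam W (p b) (Q b)
  /-- the D-factors of the source act trivially -/
  pc : ∀ j h b ψ, Commute (π (ι j h)) (Q b ψ)
  com : ∀ b b', b ≠ b' → ∀ ψ φ, Commute (Q b ψ) (Q b' φ)

end nleg

/-! ### The concrete picture -/

section conc

open Vale.Agent.P092.SR Vale.Agent.P092.H160 Vale.Agent.P092.H103 Vale.Agent.P092.H962
open Vale.Agent.P092.H515.St (IsLattice)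

variable {J B : Type} {T : B → Type} [∀ b, Group (T b)] [∀ b, TopologicalSpace (T b)]

/-- **(M2 + M3)**: the N-places of both legs, all amplifications. -/
def ExN {k : J → Type} [∀ j, NontriviallyNormedField (k j)] {N : J → ℕ} {E : Type} [Group E]
    [TopologicalSpace E] [IsTopologicalGroup E] [LocallyCompactSpace E]
    [SecondCountableTopology E] [T2Space E] (ι : ∀ j, GG (k j) (N j) →* E) (Γ : Subgroup E)
    (p : ∀ b, Γ →* T b) : Prop :=
  ∀ [MeasurableSpace E] [BorelSpace E] [DiscreteTopology Γ] [Countable Γ]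
    [MeasurableSpace (E ⧸ Γ)] [BorelSpace (E ⧸ Γ)] {ν : Measure (E ⧸ Γ)}
    [IsProbabilityMeasure ν] (hν : ∀ g : E, ν.map (fun x => g • x) = ν)
    {Λ : Type} [Group Λ] [Countable Λ]
    (_ : ∀ g : Λ, g ≠ 1 → Set.Infinite {y : Λ | ∃ h, y = h * g * h⁻¹})
    {I : Type} [Fintype I] {α : Γ → (Ell2 (I × Λ) →L[ℂ] Ell2 (I × Λ))} (hα : AF α),
    ∃ Q₁ Q₂ : ∀ b, C₀(T b, ℂ) →⋆ₙₐ[ℂ] (Lp (HH (PT α α α)) 2 (cdat ν hν).μ →L[ℂ]
        Lp (HH (PT α α α)) 2 (cdat ν hν).μ),
      NLeg ι (H34.Ind.pi (cdat ν hν) (V := V3 hα hα hα) (adjV3 hα))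
        (H34.Ind.lam (cdat ν hν) (A3R hα hα hα))
        (H34.Ind.Xset (cdat ν hν) (HH (PT α α α)) ∪
          Set.range (H34.Ind.lam (cdat ν hν) (B3R hα hα hα))) p Q₁ ∧
      NLeg ι (H34.Ind.pi (cdat ν hν) (V := V3 hα hα hα) (adjV3 hα))
        (H34.Ind.lam (cdat ν hν) (B3R hα hα hα))
        (H34.Ind.Xset (cdat ν hν) (HH (PT α α α)) ∪
          Set.range (H34.Ind.lam (cdat ν hν) (A3R hα hα hα))) p Q₂ ∧
      ∀ b b' ψ φ, Commute (Q₁ b ψ) (Q₂ b' φ)

/-- **(M4 + M5)**: the D-factors of the first leg, all amplifications; the N-places of that leg are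
given. The family `Ω` is free; `q j` is the coordinate `τ j` of the target (dualised if necessary)
over the field `l (τ j)`. -/
def ExMHalf [Fintype J] (k l : J → Type) [∀ j, NontriviallyNormedField (k j)]
    [∀ j, ProperSpace (k j)] [∀ j, MeasurableSpace (k j)] [∀ j, NontriviallyNormedField (l j)]
    [∀ j, ProperSpace (l j)] (μ : ∀ j, Measure (k j)) (N : J → ℕ)
    {E : Type} [Group E] [TopologicalSpace E]
    [IsTopologicalGroup E] [LocallyCompactSpace E] [SecondCountableTopology E] [T2Space E]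
    (ι : ∀ j, GG (k j) (N j) →* E) (a a' : ∀ j, E →* PG (k j) (N j + 1)) (Γ : Subgroup E)
    (p : ∀ b, Γ →* T b) : Prop :=
  ∀ [MeasurableSpace E] [BorelSpace E] [DiscreteTopology Γ] [Countable Γ]
    [MeasurableSpace (E ⧸ Γ)] [BorelSpace (E ⧸ Γ)] {ν : Measure (E ⧸ Γ)}
    [IsProbabilityMeasure ν] (hν : ∀ g : E, ν.map (fun x => g • x) = ν)
    {Λ : Type} [Group Λ] [Countable Λ]
    (_ : ∀ g : Λ, g ≠ 1 → Set.Infinite {y : Λ | ∃ h, y = h * g * h⁻¹})
    {I : Type} [Fintype I] {α : Γ → (Ell2 (I × Λ) →L[ℂ] Ell2 (I × Λ))} (hα : AF α)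
    (Q : ∀ b, C₀(T b, ℂ) →⋆ₙₐ[ℂ] (Lp (HH (PT α α α)) 2 (cdat ν hν).μ →L[ℂ]
        Lp (HH (PT α α α)) 2 (cdat ν hν).μ))
    (_ : NLeg ι (H34.Ind.pi (cdat ν hν) (V := V3 hα hα hα) (adjV3 hα))
      (H34.Ind.lam (cdat ν hν) (A3R hα hα hα))
      (H34.Ind.Xset (cdat ν hν) (HH (PT α α α)) ∪
        Set.range (H34.Ind.lam (cdat ν hν) (B3R hα hα hα))) p Q),
    ∃ (w : ∀ j, (k j)ˣ) (κ : Type) (_ : Fintype κ)
      (Ω : κ → Lp (HH (PT α α α)) 2 (cdat ν hν).μ)
      (m : Set Γ → (Lp (HH (PT α α α)) 2 (cdat ν hν).μ →L[ℂ]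
        Lp (HH (PT α α α)) 2 (cdat ν hν).μ)) (τ : J → J) (q : ∀ j, Γ → GG (l (τ j)) (N j))
      (s₀ : Γ → ℝ) (Ec F : ∀ j, YY (k j) (N j) → (CY (l (τ j)) (N j) →⋆ₐ[ℂ]
        (Lp (HH (PT α α α)) 2 (cdat ν hν).μ →L[ℂ] Lp (HH (PT α α α)) 2 (cdat ν hν).μ))),
      Gauge p s₀ ∧
      (∀ j, LegNF (μ j) (w j) (ι j) (a j) (a' j)
        (H34.Ind.pi (cdat ν hν) (V := V3 hα hα hα) (adjV3 hα))
        (H34.Ind.lam (cdat ν hν) (A3R hα hα hα))
        (H34.Ind.Xset (cdat ν hν) (HH (PT α α α)) ∪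
          Set.range (H34.Ind.lam (cdat ν hν) (B3R hα hα hα))) Ω m (q j) (ZM q s₀ j)
        (Ec j) (F j)) ∧
      (∀ γ, (∀ j, sp (l (τ j)) (N j + 1) (q j γ) = 1) → (∀ b, p b γ = 1) → γ = 1) ∧
      (∀ C : ℝ, {γ : Γ | (∀ j, nm (q j γ) ≤ C) ∧ s₀ γ ≤ C}.Finite)

end conc

/-! ### The source group -/

section inst

variable {J B : Type} [DecidableEq J] (k : J → Type) [∀ j, NontriviallyNormedField (k j)]
  (N : J → ℕ) (G : B → Type) [∀ b, Group (G b)] [∀ b, TopologicalSpace (G b)]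

/-- `∏ PGL_(N j + 1)(k j) × ∏ G b` -/
abbrev EM : Type := EG k N × (∀ b, G b)

/-- `SL_(N j + 1)(k j) → E` -/
noncomputable def iM (j : J) : GG (k j) (N j) →* EM k N G :=
  (MonoidHom.inl (EG k N) (∀ b, G b)).comp (iG k N j)

/-- the action on the points of the factor `j` -/
noncomputable def aM (j : J) : EM k N G →* PG (k j) (N j + 1) :=
  (aG k N j).comp (MonoidHom.fst (EG k N) (∀ b, G b))

/-- the action on the hyperplanes of the factor `j` -/
noncomputable def aM' (j : J) : EM k N G →* PG (k j) (N j + 1) :=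
  (aG' k N j).comp (MonoidHom.fst (EG k N) (∀ b, G b))

/-- the projection to the place `b` -/
def pM (b : B) : EM k N G →* G b :=
  (Pi.evalMonoidHom G b).comp (MonoidHom.snd (EG k N) (∀ b, G b))

/-- **Products with another group** -/
theorem adm_prod {k : Type} [NontriviallyNormedField k] {N : ℕ} {A B : Type} [Group A]
    [TopologicalSpace A] [Group B] [TopologicalSpace B] (tB : IsTopologicalGroup B)
    {ι : GG k N →* A} {a a' : A →* PG k (N + 1)} (h : Adm ι a a') :
    Adm ((MonoidHom.inl A B).comp ι) (a.comp (MonoidHom.fst A B))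
      (a'.comp (MonoidHom.fst A B)) where
  hN := h.hN
  tg := by
    haveI := h.tg
    infer_instance
  cι := h.cι.prodMk continuous_const
  ca := h.ca.comp continuous_fst
  ca' := h.ca'.comp continuous_fst
  comp g x := h.comp g x
  comp' g x := h.comp' g x
  ort e x l := h.ort e.1 x l
  stb X Y := by
    have hc : Continuous (MonoidHom.inl A B) := continuous_id.prodMk continuous_const
    refine H387.Nm.moore_over (MonoidHom.inl A B) hc ?_ fun e => ?_
    · exact h.stb X Y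
    · refine ⟨(1, e.2), Subgroup.subset_closure ⟨fun x => ?_, fun x => ?_⟩, e.1, ?_⟩
      · change _ ↔ (a 1 • x).submodule ≤ X
        rw [map_one, one_smul]
      · change _ ↔ (a 1 • x).submodule ≤ Y
        rw [map_one, one_smul]
      · change e = ((1 : A) * e.1, e.2 * (1 : B))
        rw [one_mul, mul_one]

variable [∀ b, IsTopologicalGroup (G b)]

theorem admP_M [∀ j, ProperSpace (k j)] (hk : ∀ j, H933.LocK (k j)) (hN : ∀ j, 2 ≤ N j) :
    AdmP (iM k N G) (aM k N G) (aM' k N G) where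
  adm j := adm_prod inferInstance ((admP_PG k N hk hN).adm j)
  triv i j hij h x := (admP_PG k N hk hN).triv i j hij h x
  triv' i j hij h x := (admP_PG k N hk hN).triv' i j hij h x

theorem pM_iM (j : J) (h : GG (k j) (N j)) (b : B) : pM k N G b (iM k N G j h) = 1 := rfl

end inst

end Vale.Agent.P092.MX
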