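import Vale.Agent.P092.MX.Join
import Vale.Agent.P092.H325.MixXc
import Vale.Agent.P092.H325.SXs

/-!
P092, project MIX (helper157), row M7a: the D-places of one leg with any cut-off sets `Z j`, the
records `H325.MX.Fam` of the family `J ⊕ B`, and the cross legs.
-/

set_option linter.all false

open scoped InnerProductSpace ENNReal ZeroAtInfty LinearAlgebra.Projectivization
open Filter Topology ContinuousLinearMap MeasureTheory TopologicalSpace Matrix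

namespace Vale.Agent.P092.MX

open Vale.Agent.P092.SN (CY CG inc NInc bw un nm NW Att act PH UD NWA actG fp fh Prv Adm TVE qP)
open Vale.Agent.P092.SNP (AdmP)
open Vale.Agent.P092.SX (LegN LegNF LegComm ClsStmt ClsN X12Stmt clsN_gen fleg_of CalN)
open Vale.Agent.P092.RC (Cm TRN Moore GG PG YY y0 ct)
open Vale.Agent.P092.H35 (sp mkP)
open Vale.Agent.P092.H943 (FLeg)
open Vale.Agent.P092.H218.NC (Key₁)

section leg

variable {J : Type} {kS k : J → Type} [∀ j, NontriviallyNormedField (kS j)]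
  [∀ j, ProperSpace (kS j)] [∀ j, MeasurableSpace (kS j)] {μ : ∀ j, Measure (kS j)}
  [∀ j, NontriviallyNormedField (k j)] [∀ j, ProperSpace (k j)] {N : J → ℕ} {E Γ K : Type}
  [Group E] [TopologicalSpace E] [Group Γ] [NormedAddCommGroup K] [InnerProductSpace ℂ K]
  [CompleteSpace K]

/-- `π (ι i h)` commutes with the calculi of the other places -/
theorem pi_comm {J : Type} {kS : J → Type} [∀ j, NontriviallyNormedField (kS j)] {k : Type}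
    [NontriviallyNormedField k] {N : J → ℕ} {E Γ K : Type} [Group E] [TopologicalSpace E]
    [Group Γ] [NormedAddCommGroup K] [InnerProductSpace ℂ K] [CompleteSpace K]
    [∀ j, ProperSpace (kS j)] [ProperSpace k] {i j : J}
    {ι : ∀ j, GG (kS j) (N j) →* E} {a a' : ∀ j, E →* PG (kS j) (N j + 1)}
    {w : (kS j)ˣ} {π : E →* (K →L[ℂ] K)} {lam : Γ →* (K →L[ℂ] K)} {W : Set (K →L[ℂ] K)}
    {m : Set Γ → (K →L[ℂ] K)} {q : Γ → GG k (N j)} {Z : ℝ → Set Γ}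
    {Ec : YY (kS j) (N j) → (CY k (N j) →⋆ₐ[ℂ] (K →L[ℂ] K))} (hA : AdmP ι a a')
    (hij : i ≠ j) (h : SX.EFam w (ι j) (a j) π lam W m q Z Ec) (g : GG (kS i) (N i))
    (y : YY (kS j) (N j)) (f : CY k (N j)) :
    π (ι i g) * Ec y f = Ec y f * π (ι i g) := by
  have e := h.pcov (ι i g) y f
  rw [hA.triv i j hij g y] at e
  have e2 : π (ι i g)⁻¹ * π (ι i g) = 1 := by rw [← map_mul, inv_mul_cancel, map_one]
  calc π (ι i g) * Ec y f = π (ι i g) * Ec y f * (π (ι i g)⁻¹ * π (ι i g)) := by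
        rw [e2, mul_one]
    _ = π (ι i g) * Ec y f * π (ι i g)⁻¹ * π (ι i g) := by simp only [mul_assoc]
    _ = _ := by rw [e]

/-- **one leg of a product**, any cut-off sets: the classical calculi of the D-places -/
theorem legZ {w : ∀ j, (kS j)ˣ} {ι : ∀ j, GG (kS j) (N j) →* E}
    {a a' : ∀ j, E →* PG (kS j) (N j + 1)}
    {π : E →* (K →L[ℂ] K)} {lam : Γ →* (K →L[ℂ] K)} {W : Set (K →L[ℂ] K)} {Ω : K}
    {m : Set Γ → (K →L[ℂ] K)} {q : ∀ j, Γ → GG (k j) (N j)} {Z : J → ℝ → Set Γ}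
    {Ec F : ∀ j, YY (kS j) (N j) → (CY (k j) (N j) →⋆ₐ[ℂ] (K →L[ℂ] K))} (hA : AdmP ι a a')
    (hZ : ∀ i j, i ≠ j → ∀ R, ∃ C, ∀ γ ∈ Z i R, nm (q j γ) ≤ C)
    (hL : ∀ j, LegN (μ j) (w j) (ι j) (a j) (a' j) π lam W Ω m (q j) (Z j) (Ec j) (F j))
    (h1 : ∀ j, LegComm (kS j) (k j) (μ j)) (h4 : ∀ j, ClsStmt (kS j) (k j) (μ j))
    (hX : ∀ i j, i ≠ j → X12Stmt (kS i) (k i) (k j) (μ i)) :
    ∃ (G : ∀ j i, H100.Gr.Gr (kS j) (Fin (N j + 1)) i → (CG (k j) (N j) i →⋆ₐ[ℂ] (K →L[ℂ] K)))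
      (σ : ∀ j, kS j →+* k j) (Q : ∀ j, C₀(PG (k j) (N j + 1), ℂ) →⋆ₙₐ[ℂ] (K →L[ℂ] K)),
      (∀ j, CalN (ι j) π lam W (q j) (Ec j) (F j) (G j)) ∧ (∀ j, Key₁ (G j)) ∧
      (∀ j, ClsN (a j) π lam W (q j) (Ec j) (σ j) (Q j)) ∧
      (∀ i j, i ≠ j → ∀ ψ φ, Commute (Q i ψ) (Q j φ)) := by
  choose G hG hK using fun j => h1 j (w j) (ι j) (a j) (a' j) π lam W Ω m (q j) (Z j) (Ec j)
    (F j) (hL j)
  choose σ Q hQ using fun j => h4 j (w j) (ι j) (a j) (a' j) π lam W Ω m (q j) (Z j) (Ec j)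
    (F j) (G j) (hL j) (hG j) (hK j)
  refine ⟨G, σ, Q, hG, hK, hQ, fun i j hij ψ φ => ?_⟩
  refine clsN_gen (hQ j) (fun y f => ?_) φ
  refine (clsN_gen (hQ i) (fun c u => ?_) ψ).symm
  exact hX i j hij (w i) (ι i) (a i) (a' i) π lam W Ω m (q i) (Z i) (Ec i) (F i)
    (G i) (q j) (Ec j y) (hL i) (hG i) (hK i) (hL j).ph (hZ i j hij)
    (fun g => (hL j).e.cm y g) (fun h g => pi_comm hA hij (hL j).e h y g)
    (fun γ g => (hL j).e.cov γ y g) c u f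

end leg

/-! ### The records for the cross legs -/

section fam

variable {J B : Type} {kS k : J → Type} [∀ j, NontriviallyNormedField (kS j)]
  [∀ j, ProperSpace (kS j)] [∀ j, NontriviallyNormedField (k j)] [∀ j, ProperSpace (k j)]
  {N : J → ℕ} {G : B → Type} [∀ b, Group (G b)] [∀ b, TopologicalSpace (G b)]
  [∀ b, IsTopologicalGroup (G b)] [∀ b, T2Space (G b)] [∀ b, LocallyCompactSpace (G b)]
  {E Γ K : Type} [Group E] [TopologicalSpace E] [Group Γ] [NormedAddCommGroup K]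
  [InnerProductSpace ℂ K] [CompleteSpace K]
  {ι : ∀ j, GG (kS j) (N j) →* E} {a a' : ∀ j, E →* PG (kS j) (N j + 1)}
  {π : E →* (K →L[ℂ] K)} {lam : Γ →* (K →L[ℂ] K)} {W : Set (K →L[ℂ] K)}
  {q : ∀ j, Γ → GG (k j) (N j)} {p : ∀ b, Γ →* G b}
  {Ec : ∀ j, YY (kS j) (N j) → (CY (k j) (N j) →⋆ₐ[ℂ] (K →L[ℂ] K))}
  {σ : ∀ j, kS j →+* k j} {Q : ∀ j, C₀(PG (k j) (N j + 1), ℂ) →⋆ₙₐ[ℂ] (K →L[ℂ] K)}
  {R : ∀ b, C₀(G b, ℂ) →⋆ₙₐ[ℂ] (K →L[ℂ] K)}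

/-- the record at the D-place `j` -/
theorem fam_of (hA : AdmP ι a a') (ph : ∀ j, PH (q j))
    (h : ∀ j, ClsN (a j) π lam W (q j) (Ec j) (σ j) (Q j)) (k₁ : ∀ b, FLeg π lam W (p b) (R b))
    (hc : ∀ x y, x ≠ y → ∀ ψ φ, Commute (QT Q R x ψ) (QT Q R y φ))
    (hp : ∀ j g b ψ, Commute (π (ι j g)) (R b ψ)) (j : J) :
    H325.MX.Fam (J := J ⊕ B) (G := TG (fun j => PG (k j) (N j + 1)) G) π lam W
      (qT (fun j => qP (q j) (ph j)) p) (QT Q R) (ι j) (Sum.inl j)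
      ((sp (k j) (N j + 1)).comp (SpecialLinearGroup.map (σ j))) where
  nd x := (flegs_join (fun j => fleg_of (ph j) (h j)) k₁ x).nd
  cm x := (flegs_join (fun j => fleg_of (ph j) (h j)) k₁ x).cm
  cov x := (flegs_join (fun j => fleg_of (ph j) (h j)) k₁ x).cov
  com := hc
  act g ψ ψ' hψ := (H325.SX.clsT_of (ρ := MonoidHom.id (GG (kS j) (N j)))
    (fun g b => hA.adm j |>.comp g b) (h j)).pcov g ψ ψ' hψ
  triv x hx g ψ := by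
    rcases x with i | b
    · have hij : j ≠ i := fun e => hx (congrArg Sum.inl e.symm)
      exact H325.SX.clsN_comm (h i) (fun b => hA.triv j i hij g b) ψ
    · exact hp j g b ψ

end fam

/-! ### The cross legs -/

section cross

variable {J B : Type} [Fintype J] [Fintype B] {kS k₁ k₂ : J → Type}
  [∀ j, NontriviallyNormedField (kS j)] [∀ j, ProperSpace (kS j)]
  [∀ j, NontriviallyNormedField (k₁ j)] [∀ j, ProperSpace (k₁ j)]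
  [∀ j, NontriviallyNormedField (k₂ j)] [∀ j, ProperSpace (k₂ j)]
  {N : J → ℕ} {G₁ G₂ : B → Type} [∀ b, Group (G₁ b)] [∀ b, TopologicalSpace (G₁ b)]
  [∀ b, IsTopologicalGroup (G₁ b)] [∀ b, T2Space (G₁ b)] [∀ b, LocallyCompactSpace (G₁ b)]
  [∀ b, SecondCountableTopology (G₁ b)] [∀ b, Group (G₂ b)] [∀ b, TopologicalSpace (G₂ b)]
  [∀ b, IsTopologicalGroup (G₂ b)] [∀ b, T2Space (G₂ b)] [∀ b, LocallyCompactSpace (G₂ b)]
  [∀ b, SecondCountableTopology (G₂ b)]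
  {E Γ K : Type} [Group E] [TopologicalSpace E] [Group Γ] [NormedAddCommGroup K]
  [InnerProductSpace ℂ K] [CompleteSpace K]
  {ι : ∀ j, GG (kS j) (N j) →* E} {a a' : ∀ j, E →* PG (kS j) (N j + 1)}
  {π : E →* (K →L[ℂ] K)} {lam₁ lam₂ : Γ →* (K →L[ℂ] K)} {X : Set (K →L[ℂ] K)} {Ω : K}
  {q₁ : ∀ j, Γ → GG (k₁ j) (N j)} {q₂ : ∀ j, Γ → GG (k₂ j) (N j)} {p₁ : ∀ b, Γ →* G₁ b}
  {p₂ : ∀ b, Γ →* G₂ b}
  {E₁ : ∀ j, YY (kS j) (N j) → (CY (k₁ j) (N j) →⋆ₐ[ℂ] (K →L[ℂ] K))}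
  {E₂ : ∀ j, YY (kS j) (N j) → (CY (k₂ j) (N j) →⋆ₐ[ℂ] (K →L[ℂ] K))}
  {σ₁ : ∀ j, kS j →+* k₁ j} {σ₂ : ∀ j, kS j →+* k₂ j}
  {Q₁ : ∀ j, C₀(PG (k₁ j) (N j + 1), ℂ) →⋆ₙₐ[ℂ] (K →L[ℂ] K)}
  {Q₂ : ∀ j, C₀(PG (k₂ j) (N j + 1), ℂ) →⋆ₙₐ[ℂ] (K →L[ℂ] K)}
  {R₁ : ∀ b, C₀(G₁ b, ℂ) →⋆ₙₐ[ℂ] (K →L[ℂ] K)} {R₂ : ∀ b, C₀(G₂ b, ℂ) →⋆ₙₐ[ℂ] (K →L[ℂ] K)}

/-- **A D-place of the first leg commutes with every place of the second one.** -/
theorem cross₁ [Countable Γ] (hA : AdmP ι a a')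
    (u₁ : ∀ b, ∀ [MeasurableSpace (G₁ b)] [BorelSpace (G₁ b)],
      (Measure.haar : Measure (G₁ b)).IsMulRightInvariant)
    (u₂ : ∀ b, ∀ [MeasurableSpace (G₂ b)] [BorelSpace (G₂ b)],
      (Measure.haar : Measure (G₂ b)).IsMulRightInvariant)
    (hPic : RC.PicX π lam₁ (X ∪ Set.range lam₂) Ω) (tv : TVE π lam₁ (X ∪ Set.range lam₂) Ω)
    (adj₂ : ∀ γ, adjoint (lam₂ γ) = lam₂ γ⁻¹) (ph₁ : ∀ j, PH (q₁ j)) (ph₂ : ∀ j, PH (q₂ j))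
    (disc : ∀ C : Set (∀ x, TG (fun j => PG (k₁ j) (N j + 1)) G₁ x), IsCompact C →
      {γ | MonoidHom.pi (qT (fun j => qP (q₁ j) (ph₁ j)) p₁) γ ∈ C}.Finite)
    (h₁ : ∀ j, ClsN (a j) π lam₁ (X ∪ Set.range lam₂) (q₁ j) (E₁ j) (σ₁ j) (Q₁ j))
    (f₁ : ∀ b, FLeg π lam₁ (X ∪ Set.range lam₂) (p₁ b) (R₁ b))
    (c₁ : ∀ x y, x ≠ y → ∀ ψ φ, Commute (QT Q₁ R₁ x ψ) (QT Q₁ R₁ y φ))
    (t₁ : ∀ j g b ψ, Commute (π (ι j g)) (R₁ b ψ))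
    (h₂ : ∀ j, ClsN (a j) π lam₂ (X ∪ Set.range lam₁) (q₂ j) (E₂ j) (σ₂ j) (Q₂ j))
    (f₂ : ∀ b, FLeg π lam₂ (X ∪ Set.range lam₁) (p₂ b) (R₂ b))
    (c₂ : ∀ x y, x ≠ y → ∀ ψ φ, Commute (QT Q₂ R₂ x ψ) (QT Q₂ R₂ y φ))
    (t₂ : ∀ j g b ψ, Commute (π (ι j g)) (R₂ b ψ)) (j : J)
    (y : J ⊕ B) (ψ : C₀(PG (k₁ j) (N j + 1), ℂ))
    (φ : C₀(TG (fun j => PG (k₂ j) (N j + 1)) G₂ y, ℂ)) : Commute (Q₁ j ψ) (QT Q₂ R₂ y φ) := by
  letI : ∀ x : J ⊕ B, MeasurableSpace (TG (fun j => PG (k₁ j) (N j + 1)) G₁ x) := fun x => borel _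
  haveI : ∀ x : J ⊕ B, BorelSpace (TG (fun j => PG (k₁ j) (N j + 1)) G₁ x) := fun x => ⟨rfl⟩
  letI : ∀ x : J ⊕ B, MeasurableSpace (TG (fun j => PG (k₂ j) (N j + 1)) G₂ x) := fun x => borel _
  haveI : ∀ x : J ⊕ B, BorelSpace (TG (fun j => PG (k₂ j) (N j + 1)) G₂ x) := fun x => ⟨rfl⟩
  haveI : ∀ x : J ⊕ B,
      (Measure.haar : Measure (TG (fun j => PG (k₁ j) (N j + 1)) G₁ x)).IsMulRightInvariant := by
    rintro (i | b)
    · letI : MeasurableSpace (PG (k₁ i) (N i + 1)) := borel _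
      haveI : BorelSpace (PG (k₁ i) (N i + 1)) := ⟨rfl⟩
      have h := H626.rightInv_pg (k₁ i) (N i + 1)
        (Measure.haar : Measure (PG (k₁ i) (N i + 1)))
      exact h
    · letI : MeasurableSpace (G₁ b) := borel _
      haveI : BorelSpace (G₁ b) := ⟨rfl⟩
      exact u₁ b
  haveI : ∀ x : J ⊕ B,
      (Measure.haar : Measure (TG (fun j => PG (k₂ j) (N j + 1)) G₂ x)).IsMulRightInvariant := by
    rintro (i | b)
    · letI : MeasurableSpace (PG (k₂ i) (N i + 1)) := borel _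
      haveI : BorelSpace (PG (k₂ i) (N i + 1)) := ⟨rfl⟩
      have h := H626.rightInv_pg (k₂ i) (N i + 1)
        (Measure.haar : Measure (PG (k₂ i) (N i + 1)))
      exact h
    · letI : MeasurableSpace (G₂ b) := borel _
      haveI : BorelSpace (G₂ b) := ⟨rfl⟩
      exact u₂ b
  exact H325.MX.xcM (j := Sum.inl j) (fun x => Measure.haar) (fun x => Measure.haar) hPic
    (fun Y h1 h2 h => tv Y ⟨h1, h2⟩ (ι j h)) disc adj₂
    (fam_of hA ph₁ h₁ f₁ c₁ t₁ j) (fam_of hA ph₂ h₂ f₂ c₂ t₂ j)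
    (H325.MX.ptG_sl (H325.SX.clsT_of (ρ := MonoidHom.id (GG (kS j) (N j)))
      (fun g b => hA.adm j |>.comp g b) (h₁ j))) y ψ φ

end cross

end Vale.Agent.P092.MX
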