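import Vale.Agent.P092.MX.Defs
import Vale.Agent.P092.MX.Cls
import Vale.Agent.P092.H560.Mx.X12c

/-!
P092, project MIX (helper157), row M7a: **the end of the mixed product**, all amplifications: from
the D-factors of one leg (`ExMHalf`) and the N-places of both legs (`ExN`), one lattice.
-/

set_option linter.all false

open scoped InnerProductSpace ENNReal LinearAlgebra.Projectivization ZeroAtInfty
open Filter Topology ContinuousLinearMap MeasureTheory TopologicalSpace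

namespace Vale.Agent.P092.MX

open Vale.Agent.P092.SN (CY CG inc NInc bw un nm NW Att act PH UD NWA actG fp fh Prv Adm TVE qP)
open Vale.Agent.P092.SNP (AdmP ZP discP noncompact_of_adm)
open Vale.Agent.P092.SNT (TVEF tvE_amp tv_tri ampC)
open Vale.Agent.P092.SX (LegN LegNF LegComm ClsStmt ClsN X12Stmt clsN_gen fleg_of CalN
  exists_leg_amp x12Stmt legNF_flip)
open Vale.Agent.P092.RC (Cm TRN Moore GG PG YY y0 ct ampH ampH_ap ampW ampO ampW_union range_ampH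
  amp_comm_iff adjV3)
open Vale.Agent.P092.H35 (sp mkP)
open Vale.Agent.P092.H943 (FLeg)
open Vale.Agent.P092.H333.Amp
open Vale.Agent.P092.H85 (cdat)

section bound

variable {J : Type} [Fintype J] {k : J → Type} [∀ j, NontriviallyNormedField (k j)]
  [∀ j, ProperSpace (k j)] {N : J → ℕ} {Γ : Type} [Group Γ]

/-- compact sets of the product have bounded coordinates -/
theorem bound_of_compact {q : ∀ j, Γ → GG (k j) (N j)} (hq : ∀ j, PH (q j))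
    {C : Set (∀ j, PG (k j) (N j + 1))} (hC : IsCompact C) :
    ∃ r : ℝ, ∀ γ, (fun j => qP (q j) (hq j) γ) ∈ C → ∀ j, nm (q j γ) ≤ r := by
  have h1 : ∀ j, ∃ R : ℝ, ∀ g : GG (k j) (N j),
      sp (k j) (N j + 1) g ∈ (fun x : ∀ j, PG (k j) (N j + 1) => x j) '' C → nm g ≤ R := by
    intro j
    have hc := hC.image (continuous_apply j : Continuous fun x : ∀ j, PG (k j) (N j + 1) => x j)
    have h2 := H35.sp_proper (by omega) hc hc.isClosed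
    have h3 : Continuous fun g : GG (k j) (N j) => nm g := by
      have h4 : Continuous fun g : GG (k j) (N j) => g.1 := continuous_subtype_val
      exact H35.nmx_cont.comp h4
    obtain ⟨R, hR⟩ := (h2.image h3).bddAbove
    exact ⟨R, fun g hg => hR ⟨g, hg, rfl⟩⟩
  choose R hR using h1
  refine ⟨∑ j, |R j|, fun γ hγ j => ?_⟩
  refine (hR j (q j γ) ⟨_, hγ, rfl⟩).trans ((le_abs_self _).trans ?_)
  exact Finset.single_le_sum (f := fun j => |R j|) (fun i _ => abs_nonneg _) (Finset.mem_univ j)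

end bound

/-! ### The abstract part -/

section leg

variable {J B : Type} {k l₁ l₂ : J → Type} [∀ j, NontriviallyNormedField (k j)]
  [∀ j, ProperSpace (k j)] [∀ j, MeasurableSpace (k j)]
  [∀ j, NontriviallyNormedField (l₁ j)] [∀ j, ProperSpace (l₁ j)]
  [∀ j, NontriviallyNormedField (l₂ j)] [∀ j, ProperSpace (l₂ j)]
  {μ : ∀ j, Measure (k j)} {N : J → ℕ}
  {T : B → Type} [∀ b, Group (T b)] [∀ b, TopologicalSpace (T b)]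
  [∀ b, IsTopologicalGroup (T b)] [∀ b, T2Space (T b)] [∀ b, LocallyCompactSpace (T b)]
  [∀ b, SecondCountableTopology (T b)]
  {E Γ K : Type} [Group E]
  [TopologicalSpace E] [Group Γ] [NormedAddCommGroup K] [InnerProductSpace ℂ K] [CompleteSpace K]
  {ι : ∀ j, GG (k j) (N j) →* E} {a a' : ∀ j, E →* PG (k j) (N j + 1)}
  {π : E →* (K →L[ℂ] K)} {lam lam₁ lam₂ : Γ →* (K →L[ℂ] K)} {W X : Set (K →L[ℂ] K)}
  {p : ∀ b, Γ →* T b}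

/-- the calculi of one leg on the amplified space -/
theorem one_leg [∀ j, BorelSpace (k j)] [∀ j, IsFiniteMeasureOnCompacts (μ j)]
    [∀ j, (μ j).IsOpenPosMeasure] {Q : Type} [Group Q] [Fintype Q] (hA : AdmP ι a a')
    (hk₁ : ∀ j, H933.LocK (l₁ j)) (g1 : ∀ j, LegComm (k j) (l₁ j) (μ j))
    (c1 : ∀ j, ClsStmt (k j) (l₁ j) (μ j)) {Ω : KT Q K} {w : ∀ j, (k j)ˣ}
    {m : Set Γ → (KT Q K →L[ℂ] KT Q K)} {q : ∀ j, Γ → GG (l₁ j) (N j)} {Z : J → ℝ → Set Γ}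
    {E₁ F₁ : ∀ j, YY (k j) (N j) → (CY (l₁ j) (N j) →⋆ₐ[ℂ] (KT Q K →L[ℂ] KT Q K))}
    (L : ∀ j, LegN (μ j) (w j) (ι j) (a j) (a' j) (ampH Q π) (ampH Q lam) (ampW Q W) Ω m (q j)
      (Z j) (E₁ j) (F₁ j)) {R : ∀ b, C₀(T b, ℂ) →⋆ₙₐ[ℂ] (K →L[ℂ] K)}
    (nl : NLeg ι π lam W p R)
    (hZ : ∀ i j, i ≠ j → ∀ R, ∃ C, ∀ γ ∈ Z i R, nm (q j γ) ≤ C)
    (hB : ∀ j b R, ∃ C : Set (T b), IsCompact C ∧ ∀ γ ∈ Z j R, p b γ ∈ C) :
    ∃ (σ : ∀ j, k j →+* l₁ j)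
      (P : ∀ j, C₀(PG (l₁ j) (N j + 1), ℂ) →⋆ₙₐ[ℂ] (KT Q K →L[ℂ] KT Q K)),
      (∀ j, ClsN (a j) (ampH Q π) (ampH Q lam) (ampW Q W) (q j) (E₁ j) (σ j) (P j)) ∧
      (∀ b, FLeg (ampH Q π) (ampH Q lam) (ampW Q W) (p b) (ampN Q (R b))) ∧
      (∀ x y, x ≠ y → ∀ ψ φ, Commute (QT P (fun b => ampN Q (R b)) x ψ)
        (QT P (fun b => ampN Q (R b)) y φ)) ∧
      ∀ j g b ψ, Commute (ampH Q π (ι j g)) (ampN Q (R b) ψ) := by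
  letI : ∀ j, MeasurableSpace (l₁ j) := fun j => borel _
  obtain ⟨G, σ, P, hG, hK, e1, k1⟩ := legZ hA hZ L g1 c1 fun i j _ => x12Stmt (hk₁ j)
  have f1 : ∀ b, FLeg (ampH Q π) (ampH Q lam) (ampW Q W) (p b) (ampN Q (R b)) :=
    fun b => fleg_amp (nl.fl b)
  have t1 : ∀ j g b ψ, Commute (ampH Q π (ι j g)) (ampN Q (R b) ψ) := fun j g b ψ => by
    rw [ampH_ap, ampN_ap]
    exact amp_comm_iff.2 (nl.pc j g b ψ)
  refine ⟨σ, P, e1, f1, comm_join k1 (fun i j hij ψ φ => comm_amp (nl.com i j hij ψ φ))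
    fun j b ψ φ => ?_, t1⟩
  exact (H560.Mx.x12_cls (μ := μ j) (q' := fun γ => p b γ) (Q' := ampN Q (R b)) (L j) (hG j)
    (hK j) (hB j b) (f1 b).cm (fun g ψ => (t1 j g b ψ).eq) (f1 b).cov (e1 j) φ ψ).symm

/-- **Two legs over a mixed product give two commuting classical legs.** -/
theorem clegsM_of [Fintype J] [Fintype B] [Countable Γ] [∀ j, BorelSpace (k j)]
    [∀ j, IsFiniteMeasureOnCompacts (μ j)] [∀ j, (μ j).IsOpenPosMeasure]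
    (hu : ∀ b, ∀ [MeasurableSpace (T b)] [BorelSpace (T b)],
      (Measure.haar : Measure (T b)).IsMulRightInvariant)
    (hA : AdmP ι a a') (hk₁ : ∀ j, H933.LocK (l₁ j)) (hk₂ : ∀ j, H933.LocK (l₂ j))
    (g1 : ∀ j, LegComm (k j) (l₁ j) (μ j)) (g2 : ∀ j, LegComm (k j) (l₂ j) (μ j))
    (c1 : ∀ j, ClsStmt (k j) (l₁ j) (μ j)) (c2 : ∀ j, ClsStmt (k j) (l₂ j) (μ j))
    {κ κ₁ κ₂ : Type} [Fintype κ] [Fintype κ₁] [Fintype κ₂] {Ω : κ → K} {Ω₁ : κ₁ → K} {Ω₂ : κ₂ → K}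
    (hp : RC.Pic2F π lam₁ lam₂ X Ω) (tv : TVEF π lam₁ (X ∪ Set.range lam₂) Ω)
    {w₁ w₂ : ∀ j, (k j)ˣ} {m₁ m₂ : Set Γ → (K →L[ℂ] K)}
    {q₁ : ∀ j, Γ → GG (l₁ j) (N j)} {q₂ : ∀ j, Γ → GG (l₂ j) (N j)}
    {Z₁ Z₂ : J → ℝ → Set Γ}
    {E₁ F₁ : ∀ j, YY (k j) (N j) → (CY (l₁ j) (N j) →⋆ₐ[ℂ] (K →L[ℂ] K))}
    {E₂ F₂ : ∀ j, YY (k j) (N j) → (CY (l₂ j) (N j) →⋆ₐ[ℂ] (K →L[ℂ] K))}
    (l1 : ∀ j, LegNF (μ j) (w₁ j) (ι j) (a j) (a' j) π lam₁ (X ∪ Set.range lam₂) Ω₁ m₁ (q₁ j)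
      (Z₁ j) (E₁ j) (F₁ j))
    (l2 : ∀ j, LegNF (μ j) (w₂ j) (ι j) (a j) (a' j) π lam₂ (X ∪ Set.range lam₁) Ω₂ m₂ (q₂ j)
      (Z₂ j) (E₂ j) (F₂ j))
    {R₁ R₂ : ∀ b, C₀(T b, ℂ) →⋆ₙₐ[ℂ] (K →L[ℂ] K)}
    (n1 : NLeg ι π lam₁ (X ∪ Set.range lam₂) p R₁) (n2 : NLeg ι π lam₂ (X ∪ Set.range lam₁) p R₂)
    (nc : ∀ b b' ψ φ, Commute (R₁ b ψ) (R₂ b' φ))
    (z1 : ∀ i j, i ≠ j → ∀ R, ∃ C, ∀ γ ∈ Z₁ i R, nm (q₁ j γ) ≤ C)
    (z2 : ∀ i j, i ≠ j → ∀ R, ∃ C, ∀ γ ∈ Z₂ i R, nm (q₂ j γ) ≤ C)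
    (y1 : ∀ j b R, ∃ C : Set (T b), IsCompact C ∧ ∀ γ ∈ Z₁ j R, p b γ ∈ C)
    (y2 : ∀ j b R, ∃ C : Set (T b), IsCompact C ∧ ∀ γ ∈ Z₂ j R, p b γ ∈ C)
    (i1 : ∀ γ, (∀ j, sp (l₁ j) (N j + 1) (q₁ j γ) = 1) → (∀ b, p b γ = 1) → γ = 1)
    (i2 : ∀ γ, (∀ j, sp (l₂ j) (N j + 1) (q₂ j γ) = 1) → (∀ b, p b γ = 1) → γ = 1)
    (d1 : ∀ (C : ℝ) (D : Set (∀ b, T b)), IsCompact D →
      {γ : Γ | (∀ j, nm (q₁ j γ) ≤ C) ∧ (fun b => p b γ) ∈ D}.Finite)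
    (d2 : ∀ (C : ℝ) (D : Set (∀ b, T b)), IsCompact D →
      {γ : Γ | (∀ j, nm (q₂ j γ) ≤ C) ∧ (fun b => p b γ) ∈ D}.Finite) :
    ∃ (Q₁ : C₀(∀ x, TG (fun j => PG (l₁ j) (N j + 1)) T x, ℂ) →⋆ₙₐ[ℂ] (K →L[ℂ] K))
      (Q₂ : C₀(∀ x, TG (fun j => PG (l₂ j) (N j + 1)) T x, ℂ) →⋆ₙₐ[ℂ] (K →L[ℂ] K)),
      H264.Cl.CLeg π lam₁ (X ∪ Set.range lam₂)
        (MonoidHom.pi (qT (fun j => qP (q₁ j) (l1 j).ph) p)) Q₁ ∧
      H264.Cl.CLeg π lam₂ (X ∪ Set.range lam₁)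
        (MonoidHom.pi (qT (fun j => qP (q₂ j) (l2 j).ph) p)) Q₂ ∧
      ∀ ψ φ, Commute (Q₁ ψ) (Q₂ φ) := by
  choose n₁ h₁ using fun j => exists_leg_amp (l1 j)
  choose n₂ h₂ using fun j => exists_leg_amp (l2 j)
  obtain ⟨n₃, h₃⟩ := hp.leg₁.exists_amp
  obtain ⟨n₄, h₄⟩ := hp.leg₂.exists_amp
  obtain ⟨Q, _, _, ⟨jj⟩, hN⟩ := RC.exists_grp (κ ⊕ κ₁ ⊕ κ₂) (∑ j, n₁ j + ∑ j, n₂ j + n₃ + n₄)
  obtain ⟨j₀, -⟩ : ∃ j : κ ↪ Q, True := ⟨Function.Embedding.inl.trans jj, trivial⟩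
  obtain ⟨j₁, -⟩ : ∃ j : κ₁ ↪ Q, True :=
    ⟨(Function.Embedding.inl.trans Function.Embedding.inr).trans jj, trivial⟩
  obtain ⟨j₂, -⟩ : ∃ j : κ₂ ↪ Q, True :=
    ⟨(Function.Embedding.inr.trans Function.Embedding.inr).trans jj, trivial⟩
  have b1 : ∀ j, n₁ j ≤ ∑ j, n₁ j := fun j =>
    Finset.single_le_sum (f := n₁) (fun i _ => Nat.zero_le _) (Finset.mem_univ j)
  have b2 : ∀ j, n₂ j ≤ ∑ j, n₂ j := fun j =>
    Finset.single_le_sum (f := n₂) (fun i _ => Nat.zero_le _) (Finset.mem_univ j)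
  have L1 := fun j => h₁ j Q (by have := b1 j; omega) j₁
  have L2 := fun j => h₂ j Q (by have := b2 j; omega) j₂
  have P1 := h₃ Q (by omega) j₀
  have P2 := h₄ Q (by omega) j₀
  have T1 : TVE (ampH Q π) (ampH Q lam₁) (ampW Q (X ∪ Set.range lam₂)) (ampO j₀ Ω) := tvE_amp tv j₀
  have hM : ∀ Y ∈ SD.MM lam₂ (X ∪ Set.range lam₁), Y ∈ SD.MM lam₁ (X ∪ Set.range lam₂) := by
    rintro Y ⟨h1, h2⟩
    refine ⟨?_, fun γ => h1 _ (Or.inr ⟨γ, rfl⟩)⟩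
    rintro w (hw | ⟨γ, rfl⟩)
    · exact h1 _ (Or.inl hw)
    · exact h2 γ
  have tv2 : TVEF π lam₂ (X ∪ Set.range lam₁) Ω := fun Y hY h => tv Y (hM Y hY) h
  have T2 : TVE (ampH Q π) (ampH Q lam₂) (ampW Q (X ∪ Set.range lam₁)) (ampO j₀ Ω) :=
    tvE_amp tv2 j₀
  obtain ⟨σ₁, P, e1, f1, k1, t1⟩ := one_leg hA hk₁ g1 c1 L1 n1 z1 y1
  obtain ⟨σ₂, R, e2, f2, k2, t2⟩ := one_leg hA hk₂ g2 c2 L2 n2 z2 y2
  have D1 := discT (q := fun j => qP (q₁ j) (l1 j).ph) (p := p) fun C D hC hD => by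
    obtain ⟨r, hr⟩ := bound_of_compact (fun j => (l1 j).ph) hC
    exact (d1 r D hD).subset fun γ hγ => ⟨hr γ hγ.1, hγ.2⟩
  have D2 := discT (q := fun j => qP (q₂ j) (l2 j).ph) (p := p) fun C D hC hD => by
    obtain ⟨r, hr⟩ := bound_of_compact (fun j => (l2 j).ph) hC
    exact (d2 r D hD).subset fun γ hγ => ⟨hr γ hγ.1, hγ.2⟩
  have e1' : ∀ j, ClsN (a j) (ampH Q π) (ampH Q lam₁) (ampW Q X ∪ Set.range (ampH Q lam₂)) (q₁ j)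
      (fun x => ampC Q (E₁ j x)) (σ₁ j) (P j) := fun j => by
    have h := e1 j
    rwa [ampW_union, ← range_ampH] at h
  have e2' : ∀ j, ClsN (a j) (ampH Q π) (ampH Q lam₂) (ampW Q X ∪ Set.range (ampH Q lam₁)) (q₂ j)
      (fun x => ampC Q (E₂ j x)) (σ₂ j) (R j) := fun j => by
    have h := e2 j
    rwa [ampW_union, ← range_ampH] at h
  have f1' : ∀ b, FLeg (ampH Q π) (ampH Q lam₁) (ampW Q X ∪ Set.range (ampH Q lam₂)) (p b)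
      (ampN Q (R₁ b)) := fun b => by
    have h := f1 b
    rwa [ampW_union, ← range_ampH] at h
  have f2' : ∀ b, FLeg (ampH Q π) (ampH Q lam₂) (ampW Q X ∪ Set.range (ampH Q lam₁)) (p b)
      (ampN Q (R₂ b)) := fun b => by
    have h := f2 b
    rwa [ampW_union, ← range_ampH] at h
  rw [ampW_union, ← range_ampH] at P1 P2 T1 T2
  have hc : ∀ x y ψ φ, Commute (QT P (fun b => ampN Q (R₁ b)) x ψ)
      (QT R (fun b => ampN Q (R₂ b)) y φ) := by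
    rintro (j | b) y ψ φ
    · exact cross₁ hA hu hu P1 T1 P2.adjL (fun j => (l1 j).ph) (fun j => (l2 j).ph) D1 e1' f1' k1
        t1 e2' f2' k2 t2 j y ψ φ
    · rcases y with j | b'
      · exact (cross₁ hA hu hu P2 T2 P1.adjL (fun j => (l2 j).ph) (fun j => (l1 j).ph) D2 e2' f2'
          k2 t2 e1' f1' k1 t1 j (Sum.inr b) φ ψ).symm
      · exact comm_amp (nc b b' ψ φ)
  exact clegs_of_flegs (flegs_join (fun j => fleg_of (l1 j).ph (e1 j)) f1)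
    (flegs_join (fun j => fleg_of (l2 j).ph (e2 j)) f2) k1 k2 (injT i1) (injT i2) D1 D2 hc

end leg

/-! ### The gauge -/

section gauge

variable {J B : Type} {k : J → Type} [∀ j, NontriviallyNormedField (k j)] {N : J → ℕ}
  {T : B → Type} [∀ b, Group (T b)] [∀ b, TopologicalSpace (T b)] {Γ : Type} [Group Γ]
  {p : ∀ b, Γ →* T b} {s₀ : Γ → ℝ} {q : ∀ j, Γ → GG (k j) (N j)}

theorem Gauge.fin_of (g : Gauge p s₀) (hf : ∀ C : ℝ, {γ : Γ | (∀ j, nm (q j γ) ≤ C) ∧ s₀ γ ≤ C}.Finite)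
    (C : ℝ) (D : Set (∀ b, T b)) (hD : IsCompact D) :
    {γ : Γ | (∀ j, nm (q j γ) ≤ C) ∧ (fun b => p b γ) ∈ D}.Finite := by
  obtain ⟨R, hR⟩ := g.bd D hD
  refine (hf (max C R)).subset fun γ hγ => ⟨fun j => (hγ.1 j).trans (le_max_left _ _), ?_⟩
  exact (hR γ hγ.2).trans (le_max_right _ _)

theorem Gauge.place (g : Gauge p s₀) (j : J) (b : B) (R : ℝ) :
    ∃ C : Set (T b), IsCompact C ∧ ∀ γ ∈ ZM q s₀ j R, p b γ ∈ C := by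
  obtain ⟨C, hC, h⟩ := g.cp R
  exact ⟨_, hC.image (continuous_apply b : Continuous fun x : ∀ b, T b => x b),
    fun γ hγ => ⟨_, h γ hγ.2, rfl⟩⟩

theorem zm_bound (i j : J) (hij : i ≠ j) (R : ℝ) :
    ∃ C, ∀ γ ∈ ZM q s₀ i R, nm (q j γ) ≤ C :=
  ⟨R, fun γ hγ => hγ.1 j hij.symm⟩

end gauge

/-! ### The second leg -/

section gen

variable {J B : Type} {k l : J → Type} [∀ j, NontriviallyNormedField (k j)]
  [∀ j, ProperSpace (k j)]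
  [∀ j, NontriviallyNormedField (l j)] [∀ j, ProperSpace (l j)]
  [∀ j, MeasurableSpace (k j)] {μ : ∀ j, Measure (k j)} {N : J → ℕ} {E Γ K : Type} [Group E]
  [TopologicalSpace E] [Group Γ] [NormedAddCommGroup K] [InnerProductSpace ℂ K] [CompleteSpace K]
  {T : B → Type} [∀ b, Group (T b)] [∀ b, TopologicalSpace (T b)] {p : ∀ b, Γ →* T b}
  {ι : ∀ j, GG (k j) (N j) →* E} {a a' : ∀ j, E →* PG (k j) (N j + 1)} {π : E →* (K →L[ℂ] K)}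
  {lam₁ lam₂ : Γ →* (K →L[ℂ] K)} {W₁ W₂ : Set (K →L[ℂ] K)}

theorem mix_of_half
    (hf : ∀ (κ : Type) [Fintype κ] (Ω : κ → K) (m : Set Γ → (K →L[ℂ] K)), ∃ (Ω' : κ → K)
      (m' : Set Γ → (K →L[ℂ] K)), ∀ (j i : J) (w : (k j)ˣ) (q : Γ → GG (l i) (N j))
      (Z : ℝ → Set Γ) (Ec F : YY (k j) (N j) → (CY (l i) (N j) →⋆ₐ[ℂ] (K →L[ℂ] K))),
      LegNF (μ j) w (ι j) (a j) (a' j) π lam₁ W₁ Ω m q Z Ec F →
      ∃ Ec' F' : YY (k j) (N j) → (CY (l i) (N j) →⋆ₐ[ℂ] (K →L[ℂ] K)),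
        LegNF (μ j) w (ι j) (a j) (a' j) π lam₂ W₂ Ω' m' q Z Ec' F')
    (h : ∃ (w : ∀ j, (k j)ˣ) (κ : Type) (_ : Fintype κ) (Ω : κ → K) (m : Set Γ → (K →L[ℂ] K))
      (τ : J → J) (q : ∀ j, Γ → GG (l (τ j)) (N j)) (s₀ : Γ → ℝ)
      (Ec F : ∀ j, YY (k j) (N j) → (CY (l (τ j)) (N j) →⋆ₐ[ℂ] (K →L[ℂ] K))),
      Gauge p s₀ ∧
      (∀ j, LegNF (μ j) (w j) (ι j) (a j) (a' j) π lam₁ W₁ Ω m (q j) (ZM q s₀ j) (Ec j)
        (F j)) ∧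
      (∀ γ, (∀ j, sp (l (τ j)) (N j + 1) (q j γ) = 1) → (∀ b, p b γ = 1) → γ = 1) ∧
      (∀ C : ℝ, {γ : Γ | (∀ j, nm (q j γ) ≤ C) ∧ s₀ γ ≤ C}.Finite)) :
    ∃ (w : ∀ j, (k j)ˣ) (κ₁ κ₂ : Type) (_ : Fintype κ₁) (_ : Fintype κ₂) (Ω₁ : κ₁ → K)
      (Ω₂ : κ₂ → K) (m₁ m₂ : Set Γ → (K →L[ℂ] K)) (τ : J → J)
      (q : ∀ j, Γ → GG (l (τ j)) (N j)) (s₀ : Γ → ℝ)
      (E₁ F₁ : ∀ j, YY (k j) (N j) → (CY (l (τ j)) (N j) →⋆ₐ[ℂ] (K →L[ℂ] K)))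
      (E₂ F₂ : ∀ j, YY (k j) (N j) → (CY (l (τ j)) (N j) →⋆ₐ[ℂ] (K →L[ℂ] K))),
      Gauge p s₀ ∧
      (∀ j, LegNF (μ j) (w j) (ι j) (a j) (a' j) π lam₁ W₁ Ω₁ m₁ (q j) (ZM q s₀ j)
        (E₁ j) (F₁ j)) ∧
      (∀ j, LegNF (μ j) (w j) (ι j) (a j) (a' j) π lam₂ W₂ Ω₂ m₂ (q j) (ZM q s₀ j)
        (E₂ j) (F₂ j)) ∧
      (∀ γ, (∀ j, sp (l (τ j)) (N j + 1) (q j γ) = 1) → (∀ b, p b γ = 1) → γ = 1) ∧
      (∀ C : ℝ, {γ : Γ | (∀ j, nm (q j γ) ≤ C) ∧ s₀ γ ≤ C}.Finite) := by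
  obtain ⟨w, κ, iκ, Ω, m, τ, q, s₀, Ec, F, hg, l1, h1, h2⟩ := h
  obtain ⟨Ω', m', h3⟩ := hf κ Ω m
  choose Ec' F' l2 using fun j => h3 j (τ j) (w j) (q j) (ZM q s₀ j) (Ec j) (F j) (l1 j)
  exact ⟨w, κ, κ, iκ, iκ, Ω, Ω', m, m', τ, q, s₀, Ec, F, Ec', F', hg, l1, l2, h1, h2⟩

end gen

/-! ### The concrete picture -/

section conc

open Vale.Agent.P092.SR Vale.Agent.P092.H160 Vale.Agent.P092.H103 Vale.Agent.P092.H962
open Vale.Agent.P092.H515.St (IsLattice)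
open Vale.Agent.P092.SDT (sT sT_sq sT_adj sT_V sT_A sT_B)

/-- **[MIX], the end**: one lattice `Γ`, from the D-factors of the first leg and the N-places of
both legs. -/
theorem superAll_mix {J B : Type} [Fintype J] [Fintype B] {k l : J → Type}
    [∀ j, NontriviallyNormedField (k j)] [∀ j, ProperSpace (k j)] [∀ j, MeasurableSpace (k j)]
    [∀ j, BorelSpace (k j)] [∀ j, NontriviallyNormedField (l j)] [∀ j, ProperSpace (l j)]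
    {μ : ∀ j, Measure (k j)} [∀ j, IsFiniteMeasureOnCompacts (μ j)]
    [∀ j, (μ j).IsOpenPosMeasure] {N : J → ℕ}
    {T : B → Type} [∀ b, Group (T b)] [∀ b, TopologicalSpace (T b)]
    [∀ b, IsTopologicalGroup (T b)] [∀ b, T2Space (T b)] [∀ b, LocallyCompactSpace (T b)]
    [∀ b, SecondCountableTopology (T b)]
    (hu : ∀ b, ∀ [MeasurableSpace (T b)] [BorelSpace (T b)],
      (Measure.haar : Measure (T b)).IsMulRightInvariant)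
    {E : Type} [Group E] [TopologicalSpace E] [IsTopologicalGroup E]
    [LocallyCompactSpace E] [SecondCountableTopology E] [T2Space E] [NoncompactSpace E]
    {ι : ∀ j, GG (k j) (N j) →* E} {a a' : ∀ j, E →* PG (k j) (N j + 1)} (hA : AdmP ι a a')
    (hl : ∀ j, H933.LocK (l j)) (h1 : ∀ i j, LegComm (k i) (l j) (μ i))
    (h4 : ∀ i j, ClsStmt (k i) (l j) (μ i)) {Γ : Subgroup E} {p : ∀ b, Γ →* T b}
    (hEx : ExMHalf k l μ N ι a a' Γ p) (hN : ExN ι Γ p) (hΓ : IsLattice Γ)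
    (hicc : ∀ g : Γ, g ≠ 1 → Set.Infinite {y : Γ | ∃ h, y = h * g * h⁻¹}) :
    SR.St.SuperAll Γ := by
  intro Λ _ _ hΛ n pj hpj θ
  letI : MeasurableSpace E := borel _
  haveI : BorelSpace E := ⟨rfl⟩
  haveI hd : DiscreteTopology Γ := hΓ.disc
  haveI hc : Countable Γ := H790.countable_of_discrete (E := E) Γ
  letI : MeasurableSpace (E ⧸ Γ) := borel _
  haveI : BorelSpace (E ⧸ Γ) := ⟨rfl⟩
  obtain ⟨ν, hP', hν⟩ := H515.IsLattice.exists_prob (Λ := Γ) ⟨hΓ.disc, hΓ.covol⟩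
  have hα : AF (H103.alf θ) := H103.af_of hicc hpj θ
  obtain ⟨m, m', ξ, hT⟩ := H962.exists_tri hα hα hα hΛ
  obtain ⟨B', b', hB⟩ := H421.HsT.exists_basisHH
    (P := PT (H103.alf θ) (H103.alf θ) (H103.alf θ))
  have p2 := RC.pic2F_HH hν hα hα hα hicc hΛ (adjV3 hα) hT
  have tv := tv_tri hν (adjV3 hα) b' hT
  obtain ⟨R₁, R₂, n1, n2, nc⟩ := hN hν hΛ hα
  obtain ⟨w, κ₁, κ₂, _, _, Ω₁, Ω₂, m₁, m₂, τ, q, s₀, E₁, F₁, E₂, F₂, hg, l1, l2, i1, f1⟩ :=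
    mix_of_half (fun κ _ Ω m => ⟨_, _, fun j i w q Z Ec F l1 => ⟨_, _, legNF_flip hν (sT_sq hα)
      (sT_adj hα) (sT_V hα) (sT_A hα) (sT_B hα) (adjV3 hα) l1⟩⟩) (hEx hν hΛ hα R₁ n1)
  obtain ⟨Q₁, Q₂, c1, c2, c12⟩ := clegsM_of (l₁ := fun j => l (τ j)) (l₂ := fun j => l (τ j)) hu hA
    (fun j => hl (τ j)) (fun j => hl (τ j)) (fun j => h1 j (τ j)) (fun j => h1 j (τ j))
    (fun j => h4 j (τ j)) (fun j => h4 j (τ j)) p2 tv l1 l2 n1 n2 nc zm_bound zm_bound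
    hg.place hg.place i1 i1 (hg.fin_of f1) (hg.fin_of f1)
  exact H264.Amp.canonM_of_over hicc hΛ hpj θ rfl hα (H264.Amp.over_of_legs hν hT
    (X := H34.Ind.Xset (cdat ν hν) (HH (PT (H103.alf θ) (H103.alf θ) (H103.alf θ))))
    (fun S hS => ⟨S, hS, rfl⟩) c1 c2 c12)

end conc

end Vale.Agent.P092.MX
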