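import Vale.Agent.P092.SX.MainT
import Vale.Agent.P092.H325.PiQ

/-!
P092, project MIX (helper157), row M7a: joining the calculi of two kinds of places (index set
`J ⊕ B`), amplification of a calculus, and the end of the classical picture for a mixed product.
-/

set_option linter.all false

open scoped InnerProductSpace ENNReal ZeroAtInfty
open Filter Topology ContinuousLinearMap MeasureTheory TopologicalSpace

namespace Vale.Agent.P092.MX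

open Vale.Agent.P092.RC (Cm ampH ampH_ap ampW ampW_union range_ampH amp_comm_iff ampS cm_amp)
open Vale.Agent.P092.H333.Amp
open Vale.Agent.P092.H943 (FLeg joint_pi)
open Vale.Agent.P092.SNT (cleg_unamp)

/-! ### The family of the target groups -/

section tg

variable {J B : Type} (A : J → Type) (G : B → Type)

/-- the groups of the places `J ⊕ B` -/
def TG : J ⊕ B → Type
  | .inl j => A j
  | .inr b => G b

variable {A G}

instance instGroupTG [∀ j, Group (A j)] [∀ b, Group (G b)] : ∀ x, Group (TG A G x)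
  | .inl j => inferInstanceAs (Group (A j))
  | .inr b => inferInstanceAs (Group (G b))

instance instTopTG [∀ j, TopologicalSpace (A j)] [∀ b, TopologicalSpace (G b)] :
    ∀ x, TopologicalSpace (TG A G x)
  | .inl j => inferInstanceAs (TopologicalSpace (A j))
  | .inr b => inferInstanceAs (TopologicalSpace (G b))

instance instTGrpTG [∀ j, Group (A j)] [∀ b, Group (G b)] [∀ j, TopologicalSpace (A j)]
    [∀ b, TopologicalSpace (G b)] [∀ j, IsTopologicalGroup (A j)]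
    [∀ b, IsTopologicalGroup (G b)] : ∀ x, IsTopologicalGroup (TG A G x)
  | .inl j => inferInstanceAs (IsTopologicalGroup (A j))
  | .inr b => inferInstanceAs (IsTopologicalGroup (G b))

instance instLcTG [∀ j, TopologicalSpace (A j)] [∀ b, TopologicalSpace (G b)]
    [∀ j, LocallyCompactSpace (A j)] [∀ b, LocallyCompactSpace (G b)] :
    ∀ x, LocallyCompactSpace (TG A G x)
  | .inl j => inferInstanceAs (LocallyCompactSpace (A j))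
  | .inr b => inferInstanceAs (LocallyCompactSpace (G b))

instance instT2TG [∀ j, TopologicalSpace (A j)] [∀ b, TopologicalSpace (G b)]
    [∀ j, T2Space (A j)] [∀ b, T2Space (G b)] : ∀ x, T2Space (TG A G x)
  | .inl j => inferInstanceAs (T2Space (A j))
  | .inr b => inferInstanceAs (T2Space (G b))

instance instScTG [∀ j, TopologicalSpace (A j)] [∀ b, TopologicalSpace (G b)]
    [∀ j, SecondCountableTopology (A j)] [∀ b, SecondCountableTopology (G b)] :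
    ∀ x, SecondCountableTopology (TG A G x)
  | .inl j => inferInstanceAs (SecondCountableTopology (A j))
  | .inr b => inferInstanceAs (SecondCountableTopology (G b))

variable [∀ j, Group (A j)] [∀ b, Group (G b)] {Γ : Type} [Group Γ]

/-- the projections of the lattice -/
def qT (q : ∀ j, Γ →* A j) (p : ∀ b, Γ →* G b) : ∀ x, Γ →* TG A G x
  | .inl j => q j
  | .inr b => p b

theorem injT {q : ∀ j, Γ →* A j} {p : ∀ b, Γ →* G b}
    (h : ∀ γ, (∀ j, q j γ = 1) → (∀ b, p b γ = 1) → γ = 1) :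
    Function.Injective (MonoidHom.pi (qT q p)) :=
  (injective_iff_map_eq_one _).2 fun γ hγ =>
    h γ (fun j => congrFun hγ (.inl j)) fun b => congrFun hγ (.inr b)

theorem discT [∀ j, TopologicalSpace (A j)] [∀ b, TopologicalSpace (G b)]
    {q : ∀ j, Γ →* A j} {p : ∀ b, Γ →* G b}
    (h : ∀ (C : Set (∀ j, A j)) (D : Set (∀ b, G b)), IsCompact C → IsCompact D →
      {γ : Γ | (fun j => q j γ) ∈ C ∧ (fun b => p b γ) ∈ D}.Finite)
    (C : Set (∀ x, TG A G x)) (hC : IsCompact C) :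
    {γ | MonoidHom.pi (qT q p) γ ∈ C}.Finite := by
  have c1 : Continuous fun (x : ∀ x, TG A G x) (j : J) => (x (.inl j) : A j) :=
    continuous_pi fun j => continuous_apply (Sum.inl j : J ⊕ B)
  have c2 : Continuous fun (x : ∀ x, TG A G x) (b : B) => (x (.inr b) : G b) :=
    continuous_pi fun b => continuous_apply (Sum.inr b : J ⊕ B)
  refine (h _ _ (hC.image c1) (hC.image c2)).subset fun γ hγ => ⟨?_, ?_⟩
  · exact ⟨_, hγ, rfl⟩
  · exact ⟨_, hγ, rfl⟩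

end tg

/-! ### Joining two families of calculi -/

section join

variable {J B : Type} {A : J → Type} {G : B → Type} [∀ j, Group (A j)]
  [∀ j, TopologicalSpace (A j)] [∀ b, Group (G b)] [∀ b, TopologicalSpace (G b)]
  {E Γ K : Type} [Group E] [Group Γ] [NormedAddCommGroup K] [InnerProductSpace ℂ K]
  [CompleteSpace K]

/-- the calculi of the places `J ⊕ B` -/
def QT (Q : ∀ j, C₀(A j, ℂ) →⋆ₙₐ[ℂ] (K →L[ℂ] K)) (R : ∀ b, C₀(G b, ℂ) →⋆ₙₐ[ℂ] (K →L[ℂ] K)) :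
    ∀ x, C₀(TG A G x, ℂ) →⋆ₙₐ[ℂ] (K →L[ℂ] K)
  | .inl j => Q j
  | .inr b => R b

variable {π : E →* (K →L[ℂ] K)} {lam : Γ →* (K →L[ℂ] K)} {W : Set (K →L[ℂ] K)}
  {q : ∀ j, Γ →* A j} {p : ∀ b, Γ →* G b} {Q : ∀ j, C₀(A j, ℂ) →⋆ₙₐ[ℂ] (K →L[ℂ] K)}
  {R : ∀ b, C₀(G b, ℂ) →⋆ₙₐ[ℂ] (K →L[ℂ] K)}

theorem flegs_join (h : ∀ j, FLeg π lam W (q j) (Q j)) (k : ∀ b, FLeg π lam W (p b) (R b)) :
    ∀ x, FLeg π lam W (qT q p x) (QT Q R x)
  | .inl j => h j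
  | .inr b => k b

theorem comm_join (h : ∀ i j, i ≠ j → ∀ ψ φ, Commute (Q i ψ) (Q j φ))
    (k : ∀ i j, i ≠ j → ∀ ψ φ, Commute (R i ψ) (R j φ)) (l : ∀ j b ψ φ, Commute (Q j ψ) (R b φ)) :
    ∀ x y, x ≠ y → ∀ ψ φ, Commute (QT Q R x ψ) (QT Q R y φ)
  | .inl i, .inl j => fun hij ψ φ => h i j (fun e => hij (congrArg Sum.inl e)) ψ φ
  | .inl i, .inr b => fun _ ψ φ => l i b ψ φ
  | .inr b, .inl j => fun _ ψ φ => (l j b φ ψ).symm
  | .inr i, .inr j => fun hij ψ φ => k i j (fun e => hij (congrArg Sum.inr e)) ψ φ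

end join

/-! ### Amplification of a calculus -/

section amp

variable {E Γ K Q G : Type} [Group E] [Group Γ] [NormedAddCommGroup K] [InnerProductSpace ℂ K]
  [CompleteSpace K] [Group Q] [Fintype Q] [Group G] [TopologicalSpace G]
  {π : E →* (K →L[ℂ] K)} {lam : Γ →* (K →L[ℂ] K)} {W : Set (K →L[ℂ] K)} {q : Γ →* G}

/-- `R ⊗ 1` -/
noncomputable def ampN (Q : Type) [Group Q] [Fintype Q] (R : C₀(G, ℂ) →⋆ₙₐ[ℂ] (K →L[ℂ] K)) :
    C₀(G, ℂ) →⋆ₙₐ[ℂ] (KT Q K →L[ℂ] KT Q K) :=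
  (ampS Q K : (K →L[ℂ] K) →⋆ₙₐ[ℂ] (KT Q K →L[ℂ] KT Q K)).comp R

theorem ampN_ap (R : C₀(G, ℂ) →⋆ₙₐ[ℂ] (K →L[ℂ] K)) (ψ : C₀(G, ℂ)) :
    ampN Q R ψ = H333.Amp.amp (R ψ) := rfl

theorem fleg_amp {R : C₀(G, ℂ) →⋆ₙₐ[ℂ] (K →L[ℂ] K)} (h : FLeg π lam W q R) :
    FLeg (ampH Q π) (ampH Q lam) (ampW Q W) q (ampN Q R) where
  nd ξ hξ := ext_co fun j => h.nd _ fun ψ => congrArg (fun v : KT Q K => v j) (hξ ψ)
  cm ψ := cm_amp (h.cm ψ)
  cov γ ψ ψ' hψ := by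
    rw [ampN_ap, ampN_ap, ampH_ap, ampH_ap, ← amp_mul, ← amp_mul, h.cov γ ψ ψ' hψ]
  pcov g := by
    obtain ⟨x, hx⟩ := h.pcov g
    refine ⟨x, fun ψ ψ' hψ => ?_⟩
    rw [ampN_ap, ampN_ap, ampH_ap, ampH_ap, ← amp_mul, ← amp_mul, hx ψ ψ' hψ]

theorem comm_amp {G' : Type} [TopologicalSpace G'] {R : C₀(G, ℂ) →⋆ₙₐ[ℂ] (K →L[ℂ] K)}
    {S : C₀(G', ℂ) →⋆ₙₐ[ℂ] (K →L[ℂ] K)} {ψ : C₀(G, ℂ)} {φ : C₀(G', ℂ)}
    (h : Commute (R ψ) (S φ)) :
    Commute (H333.Amp.amp (Q := Q) (R ψ)) (H333.Amp.amp (Q := Q) (S φ)) :=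
  amp_comm_iff.2 h

end amp

/-! ### The classical leg from a record `H325.FL` and the commutation with the other places -/

section fl

variable {J : Type} [Fintype J] [DecidableEq J] {ED : Type} [Group ED] {F G : J → Type}
  [∀ b, Group (F b)] [∀ b, Group (G b)] [∀ b, TopologicalSpace (G b)]
  {Γ K : Type} [Group Γ] [NormedAddCommGroup K] [InnerProductSpace ℂ K] [CompleteSpace K]
  {π : (ED × ∀ b, F b) →* (K →L[ℂ] K)} {lam : Γ →* (K →L[ℂ] K)} {W : Set (K →L[ℂ] K)}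

/-- The covariance under the whole source group, from the covariances of the factors. -/
theorem pcov_all {R : ∀ b, C₀(G b, ℂ) →⋆ₙₐ[ℂ] (K →L[ℂ] K)}
    (h1 : ∀ b b' (h : F b'), ∃ x : G b, ∀ ψ ψ' : C₀(G b, ℂ), (∀ y, ψ' y = ψ (y * x)) →
      π (1, Pi.mulSingle b' h) * R b ψ * π (1, Pi.mulSingle b' h)⁻¹ = R b ψ')
    (h2 : ∀ b (e : ED) ψ, Commute (π (e, 1)) (R b ψ)) (b : J) (g : ED × ∀ b, F b)
    [IsTopologicalGroup (G b)] :
    ∃ x : G b, ∀ ψ ψ' : C₀(G b, ℂ), (∀ y, ψ' y = ψ (y * x)) →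
      π g * R b ψ * π g⁻¹ = R b ψ' := by
  have tr : ∀ (x : G b) (ψ : C₀(G b, ℂ)), ∃ ψ' : C₀(G b, ℂ), ∀ y, ψ' y = ψ (y * x) := fun x ψ =>
    ⟨ψ.comp (Homeomorph.mulRight x).toCocompactMap, fun y => rfl⟩
  let P : (ED × ∀ b, F b) → Prop := fun g => ∃ x : G b, ∀ ψ ψ' : C₀(G b, ℂ),
    (∀ y, ψ' y = ψ (y * x)) → π g * R b ψ * π g⁻¹ = R b ψ'
  have pm : ∀ g g', P g → P g' → P (g * g') := by
    rintro g g' ⟨x, hx⟩ ⟨x', hx'⟩
    refine ⟨x * x', fun ψ ψ' hψ => ?_⟩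
    obtain ⟨ψ₁, h3⟩ := tr x' ψ
    have e1 := hx' ψ ψ₁ h3
    have e2 := hx ψ₁ ψ' fun y => by rw [hψ, h3, mul_assoc]
    rw [map_mul, mul_inv_rev, map_mul, ← e2, ← e1]
    simp only [mul_assoc]
  have pi : ∀ g, P g → P g⁻¹ := by
    rintro g ⟨x, hx⟩
    refine ⟨x⁻¹, fun ψ ψ' hψ => ?_⟩
    have e1 := hx ψ' ψ fun y => by rw [hψ, mul_inv_cancel_right]
    rw [← e1, inv_inv]
    have e3 : π g⁻¹ * π g = 1 := by rw [← map_mul, inv_mul_cancel, map_one]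
    calc π g⁻¹ * (π g * R b ψ' * π g⁻¹) * π g = (π g⁻¹ * π g) * R b ψ' * (π g⁻¹ * π g) := by
          simp only [mul_assoc]
      _ = R b ψ' := by rw [e3, one_mul, mul_one]
  have p1 : P 1 := ⟨1, fun ψ ψ' hψ => by
    have : ψ' = ψ := by
      ext y
      rw [hψ, mul_one]
    rw [inv_one, map_one, one_mul, mul_one, this]⟩
  let S : Subgroup (∀ b, F b) :=
    { carrier := {f | P (1, f)}
      mul_mem' := fun {x y} hx hy => by
        have := pm _ _ hx hy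
        rwa [Prod.mk_mul_mk, one_mul] at this
      one_mem' := p1
      inv_mem' := fun {x} hx => by
        have := pi _ hx
        rwa [Prod.inv_mk, inv_one] at this }
  have h3 : g.2 ∈ S := Subgroup.pi_mem_of_mulSingle_mem _ fun b' => h1 b b' (g.2 b')
  have h4 : P (g.1, 1) := ⟨1, fun ψ ψ' hψ => by
    have e : ψ' = ψ := by
      ext y
      rw [hψ, mul_one]
    have e3 : π (g.1, 1) * π (g.1, 1)⁻¹ = 1 := by rw [← map_mul, mul_inv_cancel, map_one]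
    rw [(h2 b g.1 ψ).eq, mul_assoc, e3, mul_one, e]⟩
  have h5 := pm _ _ h4 h3
  rwa [Prod.mk_mul_mk, one_mul, mul_one] at h5

end fl

/-! ### The end, abstract -/

section fin

variable {I₁ I₂ : Type} [Fintype I₁] [Fintype I₂] {G₁ : I₁ → Type} {G₂ : I₂ → Type}
  [∀ i, Group (G₁ i)] [∀ i, TopologicalSpace (G₁ i)] [∀ i, IsTopologicalGroup (G₁ i)]
  [∀ i, LocallyCompactSpace (G₁ i)] [∀ i, T2Space (G₁ i)]
  [∀ i, Group (G₂ i)] [∀ i, TopologicalSpace (G₂ i)] [∀ i, IsTopologicalGroup (G₂ i)]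
  [∀ i, LocallyCompactSpace (G₂ i)] [∀ i, T2Space (G₂ i)]
  {E Γ K Q : Type} [Group E] [Group Γ] [NormedAddCommGroup K] [InnerProductSpace ℂ K]
  [CompleteSpace K] [Group Q] [Fintype Q] {π : E →* (K →L[ℂ] K)} {lam₁ lam₂ : Γ →* (K →L[ℂ] K)}
  {W₁ W₂ : Set (K →L[ℂ] K)} {q₁ : ∀ i, Γ →* G₁ i} {q₂ : ∀ i, Γ →* G₂ i}

/-- **The end of the classical picture on the amplified space.** -/
theorem clegs_of_flegs {P₁ : ∀ i, C₀(G₁ i, ℂ) →⋆ₙₐ[ℂ] (KT Q K →L[ℂ] KT Q K)}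
    {P₂ : ∀ i, C₀(G₂ i, ℂ) →⋆ₙₐ[ℂ] (KT Q K →L[ℂ] KT Q K)}
    (h₁ : ∀ i, FLeg (ampH Q π) (ampH Q lam₁) (ampW Q W₁) (q₁ i) (P₁ i))
    (h₂ : ∀ i, FLeg (ampH Q π) (ampH Q lam₂) (ampW Q W₂) (q₂ i) (P₂ i))
    (c₁ : ∀ i j, i ≠ j → ∀ ψ φ, Commute (P₁ i ψ) (P₁ j φ))
    (c₂ : ∀ i j, i ≠ j → ∀ ψ φ, Commute (P₂ i ψ) (P₂ j φ))
    (inj₁ : Function.Injective (MonoidHom.pi q₁)) (inj₂ : Function.Injective (MonoidHom.pi q₂))
    (disc₁ : ∀ C : Set (∀ i, G₁ i), IsCompact C → {γ | MonoidHom.pi q₁ γ ∈ C}.Finite)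
    (disc₂ : ∀ C : Set (∀ i, G₂ i), IsCompact C → {γ | MonoidHom.pi q₂ γ ∈ C}.Finite)
    (hc : ∀ i j ψ φ, Commute (P₁ i ψ) (P₂ j φ)) :
    ∃ (Q₁ : C₀(∀ i, G₁ i, ℂ) →⋆ₙₐ[ℂ] (K →L[ℂ] K)) (Q₂ : C₀(∀ i, G₂ i, ℂ) →⋆ₙₐ[ℂ] (K →L[ℂ] K)),
      H264.Cl.CLeg π lam₁ W₁ (MonoidHom.pi q₁) Q₁ ∧ H264.Cl.CLeg π lam₂ W₂ (MonoidHom.pi q₂) Q₂ ∧
      ∀ ψ φ, Commute (Q₁ ψ) (Q₂ φ) := by
  obtain ⟨QQ₁, C1, u1⟩ := joint_pi h₁ c₁ inj₁ disc₁
  obtain ⟨QQ₂, C2, u2⟩ := joint_pi h₂ c₂ inj₂ disc₂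
  obtain ⟨P', f1, k1⟩ := cleg_unamp C1
  obtain ⟨R', f2, k2⟩ := cleg_unamp C2
  refine ⟨P', R', k1, k2, fun Ψ Φ => ?_⟩
  have h3 : Commute (QQ₁ Ψ) (QQ₂ Φ) := by
    refine u2 _ (fun j φ => ?_) Φ
    exact (u1 _ (fun i ψ => (hc i j ψ φ).symm) Ψ).symm
  rw [f1, f2] at h3
  exact amp_comm_iff.1 h3

end fin

end Vale.Agent.P092.MX
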