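import Vale.Agent.P092.MX.Defs
import Vale.Agent.P092.H295.Trl

/-!
P092, project MIX, (R-LIFT): from the calculus of one place on the fibre `ℋ` (`KCal`) to the leg
`FLeg` on the induced space `L²(E ⧸ Γ; ℋ)`: `Q ψ` is the decomposable operator with the field
`x ↦ P (ψ (· t(s x)⁻¹))`, `s` the Borel section of the cocycle datum. `exN_of`: `ExN` from the
calculi on the fibre.
-/

set_option linter.all false

open scoped InnerProductSpace ENNReal ZeroAtInfty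
open Filter Topology ContinuousLinearMap MeasureTheory TopologicalSpace

namespace Vale.Agent.P092.MX

open Vale.Agent.P092.H790 Vale.Agent.P092.H295
open Vale.Agent.P092.RC (Cm PG GG adjV3)
open Vale.Agent.P092.H85 (cdat sec sec_meas coc coc_coe)
open Vale.Agent.P092.H943 (FLeg)

/-! ### Translations of `C₀(T)` -/

section trans

variable {T : Type} [TopologicalSpace T] [Group T] [IsTopologicalGroup T]

theorem continuous_rtr (c : C₀(T, ℂ)) : Continuous (fun g : T => rtr g c) := by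
  rw [continuous_iff_continuousAt]
  intro g₀
  rw [ContinuousAt, Metric.tendsto_nhds]
  intro ε hε
  obtain ⟨V, hV, hVs⟩ := exists_nhds_right c (half_pos hε)
  have h1 : Tendsto (fun g : T => g₀⁻¹ * g) (𝓝 g₀) (𝓝 (1 : T)) := by
    have : Continuous fun g : T => g₀⁻¹ * g := by fun_prop
    simpa using this.tendsto g₀
  filter_upwards [h1 hV] with g hg
  rw [dist_eq_norm]
  refine lt_of_le_of_lt (norm_le_of_forall (half_pos hε).le fun x => ?_) (half_lt_self hε)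
  have h2 := hVs _ hg (x * g₀)
  have h3 : x * g₀ * (g₀⁻¹ * g) = x * g := by group
  rw [h3] at h2
  exact h2.le

theorem norm_rtr_le (g : T) (c : C₀(T, ℂ)) : ‖rtr g c‖ ≤ ‖c‖ :=
  norm_le_of_forall (norm_nonneg _) fun x => norm_apply_le_norm c (x * g)

/-- an approximate unit, uniform under right translations by a fixed element -/
theorem exists_au [LocallyCompactSpace T] [T2Space T] [SecondCountableTopology T] :
    ∃ e : ℕ → C₀(T, ℂ), ∀ (h : T) (φ : C₀(T, ℂ)),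
      Tendsto (fun n => φ * rtr h (e n)) atTop (𝓝 φ) := by
  classical
  let K := CompactExhaustion.choice T
  have hf : ∀ n, ∃ f : C(T, ℝ), Set.EqOn f 1 (K n) ∧ HasCompactSupport f ∧
      ∀ x, f x ∈ Set.Icc (0 : ℝ) 1 := by
    intro n
    obtain ⟨f, f1, -, fs, f01⟩ := exists_continuous_one_zero_of_isCompact
      (K.isCompact n) isClosed_empty (Set.disjoint_empty _)
    exact ⟨f, f1, fs, f01⟩
  choose f f1 fs f01 using hf
  have hz : ∀ n, Tendsto (fun x => ((f n x : ℝ) : ℂ)) (cocompact T) (𝓝 0) := by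
    intro n
    have hs : HasCompactSupport (fun x => ((f n x : ℝ) : ℂ)) := by
      refine (fs n).comp_left (g := fun r : ℝ => (r : ℂ)) ?_
      exact Complex.ofReal_zero
    exact hs.is_zero_at_infty
  let e : ℕ → C₀(T, ℂ) := fun n =>
    ⟨⟨fun x => ((f n x : ℝ) : ℂ), Complex.continuous_ofReal.comp (f n).continuous⟩, hz n⟩
  have he : ∀ n x, e n x = ((f n x : ℝ) : ℂ) := fun n x => rfl
  refine ⟨e, fun h φ => ?_⟩
  rw [Metric.tendsto_atTop]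
  intro ε hε
  have h1 := (zero_at_infty φ).norm
  rw [norm_zero] at h1
  have h2 := h1.eventually (gt_mem_nhds (half_pos hε))
  rw [Filter.Eventually, mem_cocompact] at h2
  obtain ⟨C, hC, hCs⟩ := h2
  obtain ⟨n₀, hn₀⟩ := K.exists_superset_of_isCompact (hC.image (continuous_mul_const h))
  refine ⟨n₀, fun n hn => ?_⟩
  rw [dist_eq_norm]
  refine lt_of_le_of_lt (norm_le_of_forall (half_pos hε).le fun x => ?_) (half_lt_self hε)
  have e1 : (φ * rtr h (e n) - φ) x = φ x * (((f n (x * h) : ℝ) : ℂ) - 1) := by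
    rw [mul_sub, mul_one]
    rfl
  rw [e1, norm_mul]
  by_cases hx : x ∈ C
  · have h3 : x * h ∈ K n := K.subset hn (hn₀ ⟨x, hx, rfl⟩)
    have h4 : f n (x * h) = 1 := f1 n h3
    rw [h4]
    simp only [Complex.ofReal_one, sub_self, norm_zero, mul_zero]
    exact (half_pos hε).le
  · have h3 : ‖φ x‖ < ε / 2 := hCs hx
    have h4 : ‖((f n (x * h) : ℝ) : ℂ) - 1‖ ≤ 1 := by
      rw [← Complex.ofReal_one, ← Complex.ofReal_sub, Complex.norm_real, Real.norm_eq_abs, abs_le]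
      have := f01 n (x * h)
      exact ⟨by linarith [this.1], by linarith [this.2]⟩
    calc ‖φ x‖ * ‖((f n (x * h) : ℝ) : ℂ) - 1‖ ≤ ‖φ x‖ * 1 :=
        mul_le_mul_of_nonneg_left h4 (norm_nonneg _)
      _ ≤ ε / 2 := by rw [mul_one]; exact h3.le

variable {ℋ : Type} [NormedAddCommGroup ℋ] [InnerProductSpace ℂ ℋ] [CompleteSpace ℋ]

theorem continuous_cal (P : C₀(T, ℂ) →⋆ₙₐ[ℂ] (ℋ →L[ℂ] ℋ)) : Continuous P :=
  AddMonoidHomClass.continuous_of_bound P 1 fun c => by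
    rw [one_mul]
    exact NonUnitalStarAlgHom.norm_apply_le P c

theorem nd_of_au {P : C₀(T, ℂ) →⋆ₙₐ[ℂ] (ℋ →L[ℂ] ℋ)} (nd : ∀ ξ, (∀ ψ, P ψ ξ = 0) → ξ = 0)
    {e : ℕ → C₀(T, ℂ)}
    (he : ∀ (h : T) (φ : C₀(T, ℂ)), Tendsto (fun n => φ * rtr h (e n)) atTop (𝓝 φ)) (h : T)
    {ξ : ℋ} (hξ : ∀ n, P (rtr h (e n)) ξ = 0) : ξ = 0 := by
  refine nd ξ fun φ => ?_
  have h1 : Tendsto (fun n => P (φ * rtr h (e n)) ξ) atTop (𝓝 (P φ ξ)) :=
    (((ContinuousLinearMap.apply ℂ ℋ ξ).continuous.comp (continuous_cal P)).tendsto φ).comp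
      (he h φ)
  have h2 : (fun n => P (φ * rtr h (e n)) ξ) = fun _ => 0 := by
    funext n
    rw [map_mul]
    change P φ (P (rtr h (e n)) ξ) = 0
    rw [hξ, map_zero]
  rw [h2] at h1
  exact tendsto_nhds_unique h1 tendsto_const_nhds

end trans

/-! ### The calculus of one place on the fibre -/

section kcal

variable {E : Type} [Group E] {Γ : Subgroup E} {T : Type} [Group T] [TopologicalSpace T]
  {ℋ : Type} [NormedAddCommGroup ℋ] [InnerProductSpace ℂ ℋ] [CompleteSpace ℋ]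

/-- The calculus of one place on the fibre: `V` is the twist, `A` the leg which moves, `B` the leg
which commutes, `t : E →* T` the coordinate of the source group. -/
structure KCal (t : E →* T) (p : Γ →* T) (V A B : Γ →* (ℋ →L[ℂ] ℋ))
    (P : C₀(T, ℂ) →⋆ₙₐ[ℂ] (ℋ →L[ℂ] ℋ)) : Prop where
  nd : ∀ ξ, (∀ ψ, P ψ ξ = 0) → ξ = 0
  cov : ∀ γ (ψ ψ' : C₀(T, ℂ)), (∀ x, ψ' x = ψ ((p γ)⁻¹ * x)) → A γ * P ψ * A γ⁻¹ = P ψ'
  cm : ∀ γ ψ, Commute (B γ) (P ψ)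
  vcov : ∀ (γ : Γ) (ψ ψ' : C₀(T, ℂ)), (∀ x, ψ' x = ψ (x * t γ)) → V γ * P ψ * V γ⁻¹ = P ψ'

end kcal

/-! ### The lift -/

section lift

variable {E : Type} [Group E] [TopologicalSpace E] [IsTopologicalGroup E] [LocallyCompactSpace E]
  [SecondCountableTopology E] [T2Space E] [MeasurableSpace E] [BorelSpace E] {Γ : Subgroup E}
  [DiscreteTopology Γ] [Countable Γ] [MeasurableSpace (E ⧸ Γ)] [BorelSpace (E ⧸ Γ)]
  {ν : Measure (E ⧸ Γ)} [IsProbabilityMeasure ν] (hν : ∀ g : E, ν.map (fun x => g • x) = ν)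
  {T : Type} [TopologicalSpace T] [Group T] [IsTopologicalGroup T]
  {ℋ : Type} [NormedAddCommGroup ℋ] [InnerProductSpace ℂ ℋ] [CompleteSpace ℋ]

/-- the field of the lift -/
noncomputable def lf (Γ : Subgroup E) [DiscreteTopology Γ] [MeasurableSpace (E ⧸ Γ)]
    [BorelSpace (E ⧸ Γ)] (t : E →* T) (P : C₀(T, ℂ) →⋆ₙₐ[ℂ] (ℋ →L[ℂ] ℋ)) (ψ : C₀(T, ℂ))
    (x : E ⧸ Γ) : ℋ →L[ℂ] ℋ := P (rtr (t (sec Γ x))⁻¹ ψ)

theorem lf_norm (t : E →* T) (P : C₀(T, ℂ) →⋆ₙₐ[ℂ] (ℋ →L[ℂ] ℋ)) (ψ : C₀(T, ℂ)) (x : E ⧸ Γ) :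
    ‖lf Γ t P ψ x‖ ≤ ‖ψ‖ :=
  (NonUnitalStarAlgHom.norm_apply_le P _).trans (norm_rtr_le _ _)

theorem lf_meas {t : E →* T} (ht : Continuous t) (P : C₀(T, ℂ) →⋆ₙₐ[ℂ] (ℋ →L[ℂ] ℋ))
    (ψ : C₀(T, ℂ)) (y : ℋ) : StronglyMeasurable fun x => lf Γ t P ψ x y := by
  have h1 : Continuous fun e : E => P (rtr (t e)⁻¹ ψ) y :=
    (ContinuousLinearMap.apply ℂ ℋ y).continuous.comp
      ((continuous_cal P).comp ((continuous_rtr ψ).comp ht.inv))
  exact h1.stronglyMeasurable.comp_measurable (sec_meas Γ)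

variable {hν}

theorem lf_fld {t : E →* T} (ht : Continuous t) (P : C₀(T, ℂ) →⋆ₙₐ[ℂ] (ℋ →L[ℂ] ℋ))
    (ψ : C₀(T, ℂ)) :
    Fld (fop (cdat ν hν).μ fun x : (cdat ν hν).X => lf Γ t P ψ x)
      (fun x : (cdat ν hν).X => lf Γ t P ψ x) := by
  have h1 : ∀ y, AEStronglyMeasurable (fun x => lf Γ t P ψ x y) ν := fun y =>
    (lf_meas ht P ψ y).aestronglyMeasurable
  exact fop_spec h1 (fun x => lf_norm t P ψ x)

variable (hν) in
/-- **the lifted calculus** -/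
noncomputable def LQ {t : E →* T} (ht : Continuous t) (P : C₀(T, ℂ) →⋆ₙₐ[ℂ] (ℋ →L[ℂ] ℋ)) :
    C₀(T, ℂ) →⋆ₙₐ[ℂ] (Lp ℋ 2 (cdat ν hν).μ →L[ℂ] Lp ℋ 2 (cdat ν hν).μ) where
  toFun ψ := fop (cdat ν hν).μ fun x : (cdat ν hν).X => lf Γ t P ψ x
  map_smul' c ψ := (lf_fld ht P (c • ψ)).ext ((lf_fld ht P ψ).smul c)
    (Eventually.of_forall fun x => (congrArg P (by ext y; rfl)).trans (map_smul P c _))
  map_zero' := (lf_fld ht P 0).ext fld_zero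
    (Eventually.of_forall fun x => (congrArg P (by ext y; rfl)).trans (map_zero P))
  map_add' ψ φ := (lf_fld ht P (ψ + φ)).ext ((lf_fld ht P ψ).add (lf_fld ht P φ))
    (Eventually.of_forall fun x => (congrArg P (by ext y; rfl)).trans (map_add P _ _))
  map_mul' ψ φ := (lf_fld ht P (ψ * φ)).ext ((lf_fld ht P ψ).mul (lf_fld ht P φ))
    (Eventually.of_forall fun x => (congrArg P (by ext y; rfl)).trans (map_mul P _ _))
  map_star' ψ := ((lf_fld ht P ψ).adjoint (lf_fld ht P (star ψ))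
    (Eventually.of_forall fun x => (congrArg P (by ext y; rfl)).trans (map_star P _))).symm

theorem LQ_fld {t : E →* T} (ht : Continuous t) (P : C₀(T, ℂ) →⋆ₙₐ[ℂ] (ℋ →L[ℂ] ℋ))
    (ψ : C₀(T, ℂ)) :
    Fld (LQ hν ht P ψ) (fun x : (cdat ν hν).X => lf Γ t P ψ x) := lf_fld ht P ψ

open Vale.Agent.P092 in
/-- **(R-LIFT)** -/
theorem lift [LocallyCompactSpace T] [T2Space T] [SecondCountableTopology T] {t : E →* T}
    (ht : Continuous t) {p : Γ →* T} {V A B : Γ →* (ℋ →L[ℂ] ℋ)}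
    {P : C₀(T, ℂ) →⋆ₙₐ[ℂ] (ℋ →L[ℂ] ℋ)} (h : KCal t p V A B P)
    (hV : ∀ v, adjoint (V v) = V v⁻¹) :
    FLeg (H34.Ind.pi (cdat ν hν) hV) (H34.Ind.lam (cdat ν hν) A)
        (H34.Ind.Xset (cdat ν hν) ℋ ∪ Set.range (H34.Ind.lam (cdat ν hν) B)) p (LQ hν ht P) ∧
      ∀ g (ψ ψ' : C₀(T, ℂ)), (∀ x, ψ' x = ψ (x * t g)) →
        H34.Ind.pi (cdat ν hν) hV g * LQ hν ht P ψ * H34.Ind.pi (cdat ν hν) hV g⁻¹ =
          LQ hν ht P ψ' := by
  have hcv : ∀ g (ψ ψ' : C₀(T, ℂ)), (∀ x, ψ' x = ψ (x * t g)) →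
      H34.Ind.pi (cdat ν hν) hV g * LQ hν ht P ψ * H34.Ind.pi (cdat ν hν) hV g⁻¹ =
        LQ hν ht P ψ' := by
    intro g ψ ψ' hψ
    refine (H34.Ind.fld_conj hV (LQ_fld ht P ψ) g).ext (LQ_fld ht P ψ')
      (Eventually.of_forall fun (x : E ⧸ Γ) => ?_)
    change V (coc Γ g (g⁻¹ • x)) * P (rtr (t (sec Γ (g⁻¹ • x)))⁻¹ ψ) *
      V (coc Γ g (g⁻¹ • x))⁻¹ = P (rtr (t (sec Γ x))⁻¹ ψ')
    refine h.vcov _ _ _ fun y => ?_
    change ψ' (y * (t (sec Γ x))⁻¹) =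
      ψ (y * t (coc Γ g (g⁻¹ • x)) * (t (sec Γ (g⁻¹ • x)))⁻¹)
    have e2 : t (coc Γ g (g⁻¹ • x)) = (t (sec Γ x))⁻¹ * t g * t (sec Γ (g⁻¹ • x)) := by
      rw [coc_coe, smul_inv_smul, t.map_mul, t.map_mul, t.map_inv]
    have e3 : y * t (coc Γ g (g⁻¹ • x)) * (t (sec Γ (g⁻¹ • x)))⁻¹ =
        y * (t (sec Γ x))⁻¹ * t g := by
      rw [e2]
      group
    rw [hψ, e3]
  refine ⟨⟨fun ξ hξ => ?_, fun ψ w hw => ?_, fun γ ψ ψ' hψ => ?_, fun g => ⟨t g, hcv g⟩⟩, hcv⟩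
  · obtain ⟨e, he⟩ := exists_au (T := T)
    have h1 : ∀ᵐ (x : (cdat ν hν).X) ∂(cdat ν hν).μ, ∀ n : ℕ, lf Γ t P (e n) x (ξ x) = 0 := by
      rw [ae_all_iff]
      intro n
      have h2 := LQ_fld (hν := hν) ht P (e n) ξ
      rw [hξ (e n)] at h2
      filter_upwards [h2, Lp.coeFn_zero ℋ 2 (cdat ν hν).μ] with x h3 h4
      rw [← h3, h4]
      rfl
    refine Lp.ext ?_
    filter_upwards [h1, Lp.coeFn_zero ℋ 2 (cdat ν hν).μ] with x h2 h3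
    rw [h3]
    exact nd_of_au h.nd he _ h2
  · rcases hw with ⟨S, hS, rfl⟩ | ⟨γ, rfl⟩
    · exact (LQ_fld ht P ψ).ind hS
    · refine ((LQ_fld ht P ψ).mul (fld_comp (B γ))).ext ((fld_comp (B γ)).mul (LQ_fld ht P ψ))
        (Eventually.of_forall fun x => ?_)
      exact (h.cm γ _).symm
  · refine (((fld_comp (A γ)).mul (LQ_fld ht P ψ)).mul (fld_comp (A γ⁻¹))).ext (LQ_fld ht P ψ')
      (Eventually.of_forall fun x => ?_)
    refine h.cov γ _ _ fun y => ?_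
    change ψ' (y * _) = ψ ((p γ)⁻¹ * y * _)
    rw [hψ, mul_assoc]

/-- commutation is pointwise -/
theorem lift_comm {T' : Type} [TopologicalSpace T'] [Group T'] [IsTopologicalGroup T']
    {t : E →* T} {t' : E →* T'} (ht : Continuous t) (ht' : Continuous t')
    {P : C₀(T, ℂ) →⋆ₙₐ[ℂ] (ℋ →L[ℂ] ℋ)} {P' : C₀(T', ℂ) →⋆ₙₐ[ℂ] (ℋ →L[ℂ] ℋ)}
    (h : ∀ ψ φ, Commute (P ψ) (P' φ)) (ψ : C₀(T, ℂ)) (φ : C₀(T', ℂ)) :
    Commute (LQ hν ht P ψ) (LQ hν ht' P' φ) :=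
  ((LQ_fld ht P ψ).mul (LQ_fld ht' P' φ)).ext ((LQ_fld ht' P' φ).mul (LQ_fld ht P ψ))
    (Eventually.of_forall fun x => h _ _)

/-- the source groups on which `t` is trivial -/
theorem lift_triv {t : E →* T} (ht : Continuous t) {V : Γ →* (ℋ →L[ℂ] ℋ)}
    {P : C₀(T, ℂ) →⋆ₙₐ[ℂ] (ℋ →L[ℂ] ℋ)} (hV : ∀ v, adjoint (V v) = V v⁻¹)
    (hcv : ∀ g (ψ ψ' : C₀(T, ℂ)), (∀ x, ψ' x = ψ (x * t g)) →
      H34.Ind.pi (cdat ν hν) hV g * LQ hν ht P ψ * H34.Ind.pi (cdat ν hν) hV g⁻¹ =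
        LQ hν ht P ψ') {g : E} (hg : t g = 1) (ψ : C₀(T, ℂ)) :
    Commute (H34.Ind.pi (cdat ν hν) hV g) (LQ hν ht P ψ) := by
  have h1 := hcv g ψ ψ fun x => by rw [hg, mul_one]
  have h2 : H34.Ind.pi (cdat ν hν) hV g⁻¹ * H34.Ind.pi (cdat ν hν) hV g = 1 := by
    rw [← map_mul, inv_mul_cancel, map_one]
  calc H34.Ind.pi (cdat ν hν) hV g * LQ hν ht P ψ
      = H34.Ind.pi (cdat ν hν) hV g * LQ hν ht P ψ *
          (H34.Ind.pi (cdat ν hν) hV g⁻¹ * H34.Ind.pi (cdat ν hν) hV g) := by rw [h2, mul_one]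
    _ = H34.Ind.pi (cdat ν hν) hV g * LQ hν ht P ψ * H34.Ind.pi (cdat ν hν) hV g⁻¹ *
          H34.Ind.pi (cdat ν hν) hV g := by simp only [mul_assoc]
    _ = LQ hν ht P ψ * H34.Ind.pi (cdat ν hν) hV g := by rw [h1]

end lift

section kleg

variable {J B : Type} {k : J → Type} [∀ j, NontriviallyNormedField (k j)] {N : J → ℕ}
  {E : Type} [Group E] [TopologicalSpace E] {Γ : Subgroup E}
  {T : B → Type} [∀ b, Group (T b)] [∀ b, TopologicalSpace (T b)]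
  {ℋ : Type} [NormedAddCommGroup ℋ] [InnerProductSpace ℂ ℋ] [CompleteSpace ℋ]

/-- **one leg on the fibre, all places** -/
structure KLeg (ι : ∀ j, GG (k j) (N j) →* E) (p : ∀ b, Γ →* T b) (V A C : Γ →* (ℋ →L[ℂ] ℋ))
    (t : ∀ b, E →* T b) (P : ∀ b, C₀(T b, ℂ) →⋆ₙₐ[ℂ] (ℋ →L[ℂ] ℋ)) : Prop where
  ct : ∀ b, Continuous (t b)
  /-- the D-factors of the source act trivially -/
  tr : ∀ j h b, t b (ι j h) = 1
  kc : ∀ b, KCal (t b) (p b) V A C (P b)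
  com : ∀ b b', b ≠ b' → ∀ ψ φ, Commute (P b ψ) (P b' φ)

/-- **both legs on the fibre, all places** -/
def KBoth (ι : ∀ j, GG (k j) (N j) →* E) (p : ∀ b, Γ →* T b) (V A C : Γ →* (ℋ →L[ℂ] ℋ)) : Prop :=
  ∃ (t₁ t₂ : ∀ b, E →* T b) (P₁ P₂ : ∀ b, C₀(T b, ℂ) →⋆ₙₐ[ℂ] (ℋ →L[ℂ] ℋ)),
    KLeg ι p V A C t₁ P₁ ∧ KLeg ι p V C A t₂ P₂ ∧ ∀ b b' ψ φ, Commute (P₁ b ψ) (P₂ b' φ)

end kleg

section nlegs

variable {J B : Type} {k : J → Type} [∀ j, NontriviallyNormedField (k j)] {N : J → ℕ}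
  {E : Type} [Group E] [TopologicalSpace E] [IsTopologicalGroup E] [LocallyCompactSpace E]
  [SecondCountableTopology E] [T2Space E] [MeasurableSpace E] [BorelSpace E] {Γ : Subgroup E}
  [DiscreteTopology Γ] [Countable Γ] [MeasurableSpace (E ⧸ Γ)] [BorelSpace (E ⧸ Γ)]
  {ν : Measure (E ⧸ Γ)} [IsProbabilityMeasure ν] (hν : ∀ g : E, ν.map (fun x => g • x) = ν)
  {T : B → Type} [∀ b, Group (T b)] [∀ b, TopologicalSpace (T b)]
  [∀ b, IsTopologicalGroup (T b)] [∀ b, LocallyCompactSpace (T b)] [∀ b, T2Space (T b)]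
  [∀ b, SecondCountableTopology (T b)]
  {ℋ : Type} [NormedAddCommGroup ℋ] [InnerProductSpace ℂ ℋ] [CompleteSpace ℋ]

/-- one leg, all places -/
theorem nleg_of {ι : ∀ j, GG (k j) (N j) →* E} {p : ∀ b, Γ →* T b} {V A C : Γ →* (ℋ →L[ℂ] ℋ)}
    (hV : ∀ v, adjoint (V v) = V v⁻¹) {t : ∀ b, E →* T b}
    {P : ∀ b, C₀(T b, ℂ) →⋆ₙₐ[ℂ] (ℋ →L[ℂ] ℋ)} (h : KLeg ι p V A C t P) :
    NLeg ι (H34.Ind.pi (cdat ν hν) hV) (H34.Ind.lam (cdat ν hν) A)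
      (H34.Ind.Xset (cdat ν hν) ℋ ∪ Set.range (H34.Ind.lam (cdat ν hν) C)) p
      (fun b => LQ hν (h.ct b) (P b)) where
  fl b := (lift (h.ct b) (h.kc b) hV).1
  pc j g b ψ := lift_triv (h.ct b) hV (lift (h.ct b) (h.kc b) hV).2 (h.tr j g b) ψ
  com b b' hb ψ φ := lift_comm (h.ct b) (h.ct b') (h.com b b' hb) ψ φ

/-- both legs, all places -/
theorem exists_legs {ι : ∀ j, GG (k j) (N j) →* E} {p : ∀ b, Γ →* T b}
    {V A C : Γ →* (ℋ →L[ℂ] ℋ)} (hV : ∀ v, adjoint (V v) = V v⁻¹) (h : KBoth ι p V A C) :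
    ∃ Q₁ Q₂ : ∀ b, C₀(T b, ℂ) →⋆ₙₐ[ℂ] (Lp ℋ 2 (cdat ν hν).μ →L[ℂ] Lp ℋ 2 (cdat ν hν).μ),
      NLeg ι (H34.Ind.pi (cdat ν hν) hV) (H34.Ind.lam (cdat ν hν) A)
        (H34.Ind.Xset (cdat ν hν) ℋ ∪ Set.range (H34.Ind.lam (cdat ν hν) C)) p Q₁ ∧
      NLeg ι (H34.Ind.pi (cdat ν hν) hV) (H34.Ind.lam (cdat ν hν) C)
        (H34.Ind.Xset (cdat ν hν) ℋ ∪ Set.range (H34.Ind.lam (cdat ν hν) A)) p Q₂ ∧
      ∀ b b' ψ φ, Commute (Q₁ b ψ) (Q₂ b' φ) := by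
  obtain ⟨t₁, t₂, P₁, P₂, h₁, h₂, hc⟩ := h
  exact ⟨_, _, nleg_of hν hV h₁, nleg_of hν hV h₂, fun b b' ψ φ =>
    lift_comm (h₁.ct b) (h₂.ct b') (hc b b') ψ φ⟩

end nlegs

/-! ### `ExN` from the calculi on the fibre -/

section exn

open Vale.Agent.P092.SR Vale.Agent.P092.H160 Vale.Agent.P092.H103 Vale.Agent.P092.H962

variable {J B : Type} {T : B → Type} [∀ b, Group (T b)] [∀ b, TopologicalSpace (T b)]
  {k : J → Type} [∀ j, NontriviallyNormedField (k j)] {N : J → ℕ} {E : Type} [Group E]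
  [TopologicalSpace E]

/-- **(M2 + M3), on the fibre**: for every bimodule, a calculus of every place for both legs. -/
def KCalAll (ι : ∀ j, GG (k j) (N j) →* E) (Γ : Subgroup E) (p : ∀ b, Γ →* T b) : Prop :=
  ∀ {Λ : Type} [Group Λ] [Countable Λ]
    (_ : ∀ g : Λ, g ≠ 1 → Set.Infinite {y : Λ | ∃ h, y = h * g * h⁻¹})
    {I : Type} [Fintype I] {α : Γ → (Ell2 (I × Λ) →L[ℂ] Ell2 (I × Λ))} (hα : AF α),
    KBoth ι p (V3 hα hα hα) (A3R hα hα hα) (B3R hα hα hα)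

variable [IsTopologicalGroup E] [LocallyCompactSpace E] [SecondCountableTopology E] [T2Space E]
  [∀ b, IsTopologicalGroup (T b)] [∀ b, LocallyCompactSpace (T b)] [∀ b, T2Space (T b)]
  [∀ b, SecondCountableTopology (T b)]

/-- **`ExN` from the calculi on the fibre** -/
theorem exN_of {ι : ∀ j, GG (k j) (N j) →* E} {Γ : Subgroup E} {p : ∀ b, Γ →* T b}
    (h : KCalAll ι Γ p) : ExN ι Γ p := by
  intro mE bE dΓ cΓ mX bX ν pν hν Λ gΛ cΛ icc I fI α hα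
  exact exists_legs hν (adjV3 hα) (h icc hα)

end exn

end Vale.Agent.P092.MX
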